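import Vale.Agent.P146.DecompBuild

/-! Every nonzero even multigraph contains a piece with few branch points. -/

noncomputable section

namespace Vale.Agent.P146

lemma Piece.exists_map_eq {V W : Type*} (f : V → W) (Q : Piece W)
    (h1 : ∀ x, ∃ v, f v = (Q.ext x).1)
    (h2 : ∀ x w, (Q.ext x).2 = Sum.inr w → ∃ v, f v = w) : ∃ P : Piece V, P.map f = Q := by
  have : ∀ x, ∃ o : Fin Q.m ⊕ V, Sum.map id f o = (Q.ext x).2 := fun x => by
    rcases h : (Q.ext x).2 with j | w
    · exact ⟨Sum.inl j, rfl⟩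
    · obtain ⟨v, rfl⟩ := h2 x w h
      exact ⟨Sum.inr v, rfl⟩
  choose a ha using h1
  choose o ho using this
  refine ⟨⟨Q.m, Q.k, Q.link, fun x => (a x, o x)⟩, ?_⟩
  obtain ⟨m, k, link, ext⟩ := Q
  simp only [Piece.map, Piece.mk.injEq, heq_eq_eq, true_and]
  exact funext fun x => Prod.ext (ha x) (ho x)

theorem exists_piece {n : ℕ} (α : Idx n) (hα : α ≠ 0) (heven : ∀ v, Even (vdeg α v)) :
    ∃ (c : ℕ) (P : Piece (Fin c)) (pins : Fin c → Fin n) (φ : Fin P.m → Fin n) (R : Idx n),
      Function.Injective pins ∧ (P.map pins).Valid ∧ (P.map pins).Good φ ∧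
      α = (P.map pins).idx φ + R ∧ (∀ j, vdeg R (φ j) = 0) ∧
      0 < c ∧ 0 < P.k ∧ deg R + P.size = deg α ∧
      (2 * c ≤ P.order ∨ (c = 1 ∧ P.order = 1)) := by
  classical
  obtain ⟨v₀, hv₀⟩ : ∃ v, vdeg α v ≠ 0 := by
    by_contra! h
    refine hα (funext fun e => ?_)
    have := Finset.sum_eq_zero_iff.1 (h e.1.1) e (Finset.mem_univ e)
    simpa using this
  set B₀ := Finset.univ.filter fun v => 4 ≤ vdeg α v with hB₀
  obtain ⟨B, hBne, hfree, hcase⟩ : ∃ B : Finset (Fin n), B.Nonempty ∧
      (∀ v, v ∉ B → vdeg α v = 0 ∨ vdeg α v = 2) ∧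
      ((∀ b ∈ B, 4 ≤ vdeg α b) ∨ ∃ b, B = {b} ∧ vdeg α b = 2) := by
    have hev : ∀ v, vdeg α v < 4 → vdeg α v = 0 ∨ vdeg α v = 2 := fun v hv => by
      have := heven v
      rw [Nat.even_iff] at this
      omega
    by_cases h : B₀.Nonempty
    · exact ⟨B₀, h, fun v hv => hev v (by simpa [hB₀] using hv),
        Or.inl fun b hb => by simpa [hB₀] using hb⟩
    · have h4 : ∀ v, vdeg α v < 4 := fun v => by
        by_contra! hv
        exact h ⟨v, by simp [hB₀, hv]⟩
      exact ⟨{v₀}, Finset.singleton_nonempty _, fun v _ => hev v (h4 v),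
        Or.inr ⟨v₀, rfl, (hev v₀ (h4 v₀)).resolve_left hv₀⟩⟩
  have hpos : ∀ b ∈ B, 0 < vdeg α b := fun b hb => by
    rcases hcase with h | ⟨b', rfl, h⟩
    · have := h b hb; omega
    · rw [Finset.mem_singleton] at hb; subst hb; omega
  obtain ⟨⟨Q, φ, R, hlt, hfst, hsnd, hinj, hoff, heq, hfz, hpz, hlive, -⟩⟩ :=
    exists_dec B (deg α) α none rfl (fun v hv _ => hfree v hv) (by simp)
  have hpins : ∀ w ∈ B, ∃ v, B.orderEmbOfFin rfl v = w := fun w hw => by
    have : w ∈ Set.range (B.orderEmbOfFin rfl) := by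
      rw [Finset.range_orderEmbOfFin]; exact hw
    exact this
  set pins := B.orderEmbOfFin rfl with hpinsdef
  obtain ⟨P, rfl⟩ := Piece.exists_map_eq pins Q (fun x => hpins _ (hfst x))
    fun x w h => hpins w (hsnd x w h).1
  have hgood : (P.map pins).Good φ := ⟨hinj, fun j x h => hoff j (h ▸ hfst x),
    fun j x v hv h => hoff j (h ▸ (hsnd x v hv).1)⟩
  have hl : ∀ x v, ((P.map pins).ext x).2 = Sum.inr v → ((P.map pins).ext x).1 ≠ v :=
    fun x v hv => (hsnd x v hv).2
  have hv : ∀ v, vdeg α v = vdeg ((P.map pins).idx φ) v + vdeg R v := fun v => by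
    rw [heq, vdeg_add]
  have hvf : ∀ j, vdeg α (φ j) = 2 := fun j => by
    rcases hfree _ (hoff j) with h | h
    · exact absurd h (hlive j)
    · exact h
  have hdeg2 : ∀ j, (P.map pins).fdeg j = 2 := fun j => by
    rw [← Piece.vdeg_idx_free hgood hlt hl j, ← hvf j, hv, hfz j, add_zero]
  have hsz : deg ((P.map pins).idx φ) = (P.map pins).size := Piece.deg_idx hgood hlt hl
  -- handshake on the placed piece
  have hcount : 2 * P.size = 2 * P.m + ∑ b ∈ B, vdeg α b := by
    have hdisj : Disjoint B (Finset.univ.image φ) := by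
      rw [Finset.disjoint_right]
      intro v hv
      obtain ⟨j, -, rfl⟩ := Finset.mem_image.1 hv
      exact hoff j
    have hsum := sum_vdeg ((P.map pins).idx φ)
    rw [← Finset.sum_subset (Finset.subset_univ (B ∪ Finset.univ.image φ)) fun v _ hv => by
        simp only [Finset.mem_union, Finset.mem_image, Finset.mem_univ, true_and, not_or,
          not_exists] at hv
        exact Piece.vdeg_idx_eq_zero hv.2 (fun x h => hv.1 (h ▸ hfst x))
          fun x w hw h => hv.1 (h ▸ (hsnd x w hw).1),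
      Finset.sum_union hdisj, Finset.sum_image hinj.injOn, hsz] at hsum
    have e1 : ∀ b ∈ B, vdeg ((P.map pins).idx φ) b = vdeg α b := fun b hb => by
      rw [hv, hpz b hb, add_zero]
    rw [Finset.sum_congr rfl e1,
      Finset.sum_congr rfl fun j _ => show vdeg ((P.map pins).idx φ) (φ j) = 2 by
        rw [Piece.vdeg_idx_free hgood hlt hl j, hdeg2 j]] at hsum
    simp only [Finset.sum_const, Finset.card_univ, Fintype.card_fin, smul_eq_mul] at hsum
    rw [show (P.map pins).size = P.size from rfl, show (P.map pins).m = P.m from rfl] at hsum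
    change (∑ b ∈ B, vdeg α b) + P.m * 2 = 2 * P.size at hsum
    omega
  refine ⟨B.card, P, pins, φ, R, pins.injective, ⟨hlt, hdeg2, hl⟩, hgood, heq, hfz,
    hBne.card_pos, ?_, ?_, ?_⟩
  · by_contra! hk
    obtain ⟨b, hb⟩ := hBne
    have h0 : vdeg ((P.map pins).idx φ) b = 0 :=
      Piece.vdeg_idx_eq_zero (fun j h => hoff j (h ▸ hb))
        (fun x => by have : (x : ℕ) < P.k := x.2; omega)
        (fun x => by have : (x : ℕ) < P.k := x.2; omega)
    have := hpos b hb
    rw [hv, h0, hpz b hb] at this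
    omega
  · have := congrArg deg heq
    rw [deg_add, hsz] at this
    change deg α = P.size + deg R at this
    omega
  · unfold Piece.order
    rcases hcase with h | ⟨b, rfl, hb⟩
    · left
      have : B.card * 4 ≤ ∑ b ∈ B, vdeg α b := by
        simpa using Finset.card_nsmul_le_sum B (fun b => vdeg α b) 4 h
      omega
    · right
      rw [Finset.sum_singleton, hb] at hcount
      refine ⟨Finset.card_singleton b, ?_⟩
      omega

end Vale.Agent.P146
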