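import Vale.Agent.P146.Defs

/-! Derivatives of the free energy: replica expansion, bounds and symmetries. -/

open MeasureTheory ProbabilityTheory
open Vale.Agent.P150 (gauss l1)

noncomputable section

namespace Vale.Agent.P146

variable {n : ℕ}

lemma abs_spin (b : Bool) : |spin b| = 1 := by cases b <;> simp [spin]

lemma abs_bond (x : Cfg n) (e : Edge n) : |bond x e| = 1 := by simp [bond, abs_mul, abs_spin]

lemma partition_pos (β : ℝ) (g : Edge n → ℝ) : 0 < partition β g :=
  Finset.sum_pos (fun _ _ => Real.exp_pos _) Finset.univ_nonempty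

lemma exp_free (β : ℝ) (g : Edge n → ℝ) : Real.exp (free β g) = partition β g :=
  Real.exp_log (partition_pos β g)

lemma gibbs_nonneg (β : ℝ) (g : Edge n → ℝ) (x : Cfg n) : 0 ≤ gibbs β g x :=
  div_nonneg (Real.exp_pos _).le (partition_pos β g).le

lemma sum_gibbs (β : ℝ) (g : Edge n → ℝ) : ∑ x, gibbs β g x = 1 := by
  simp only [gibbs, ← Finset.sum_div]
  exact div_self (partition_pos β g).ne'

lemma prod_gibbs (β : ℝ) (g : Edge n → ℝ) {k : ℕ} (x : Fin k → Cfg n) :
    ∏ a, gibbs β g (x a) = Real.exp ((∑ a, β * energy g (x a)) - k * free β g) := by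
  simp only [gibbs, Finset.prod_div_distrib, Finset.prod_const, Finset.card_univ, Fintype.card_fin,
    Real.exp_sub, Real.exp_sum, Real.exp_nat_mul, exp_free]

lemma hasDerivAt_energy (g : Edge n → ℝ) (e : Edge n) (x : Cfg n) (t : ℝ) :
    HasDerivAt (fun s => energy (Function.update g e s) x) (bond x e / Real.sqrt n) t := by
  have h : ∀ s, energy (Function.update g e s) x
      = energy g x + (s - g e) * (bond x e / Real.sqrt n) := fun s => by
    simp only [energy]
    have hh : ∀ e', Function.update g e s e' * bond x e'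
        = g e' * bond x e' + if e' = e then (s - g e) * bond x e else 0 := fun e' => by
      by_cases he : e' = e
      · subst he; simp; ring
      · simp [he]
    simp only [hh, Finset.sum_add_distrib, Finset.sum_ite_eq', Finset.mem_univ, if_true]
    ring
  simp only [h]
  simpa using (((hasDerivAt_id t).sub_const (g e)).mul_const (bond x e / Real.sqrt n)).const_add (energy g x)

/-- the Gibbs mean of one bond -/
def mean (β : ℝ) (g : Edge n → ℝ) (e : Edge n) : ℝ := ∑ x, gibbs β g x * bond x e

lemma hasDerivAt_free (β : ℝ) (g : Edge n → ℝ) (e : Edge n) (t : ℝ) :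
    HasDerivAt (fun s => free β (Function.update g e s))
      (β / Real.sqrt n * mean β (Function.update g e t) e) t := by
  have h1 : HasDerivAt (fun s => partition β (Function.update g e s))
      (∑ x : Cfg n, Real.exp (β * energy (Function.update g e t) x) * (β * (bond x e / Real.sqrt n))) t :=
    HasDerivAt.fun_sum fun x _ => ((hasDerivAt_energy g e x t).const_mul β).exp
  refine (h1.log (partition_pos β _).ne').congr_deriv ?_
  rw [Finset.sum_div, mean, Finset.mul_sum]
  refine Finset.sum_congr rfl fun x _ => ?_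
  simp only [gibbs]; ring

lemma avg_snoc (β : ℝ) (g : Edge n → ℝ) {k : ℕ} (f : (Fin k → Cfg n) → ℝ) (h : Cfg n → ℝ) :
    avg β g (fun x : Fin (k + 1) → Cfg n => f (fun a => x a.castSucc) * h (x (Fin.last k)))
      = avg β g f * ∑ y, gibbs β g y * h y := by
  simp only [avg]
  rw [← (Fin.snocEquiv fun _ => Cfg n).sum_comp, Fintype.sum_prod_type, Finset.mul_sum]
  refine Finset.sum_congr rfl fun y _ => ?_
  rw [Finset.sum_mul]
  refine Finset.sum_congr rfl fun x _ => ?_
  simp only [Fin.snocEquiv_apply, Fin.prod_univ_castSucc, Fin.snoc_castSucc, Fin.snoc_last]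
  ring

lemma avg_castSucc (β : ℝ) (g : Edge n → ℝ) {k : ℕ} (f : (Fin k → Cfg n) → ℝ) :
    avg β g (fun x : Fin (k + 1) → Cfg n => f (fun a => x a.castSucc)) = avg β g f := by
  simpa [sum_gibbs] using avg_snoc β g f (fun _ => 1)

lemma hasDerivAt_avg (β : ℝ) (g : Edge n → ℝ) (e : Edge n) {k : ℕ} (f : (Fin k → Cfg n) → ℝ) (t : ℝ) :
    HasDerivAt (fun s => avg β (Function.update g e s) f)
      (β / Real.sqrt n * avg β (Function.update g e t) (fun x : Fin (k + 1) → Cfg n =>
        f (fun a => x a.castSucc) * ((∑ a : Fin k, bond (x a.castSucc) e) - k * bond (x (Fin.last k)) e))) t := by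
  set g' := Function.update g e t with hg'
  have h : HasDerivAt (fun s => avg β (Function.update g e s) f)
      (∑ x : Fin k → Cfg n, (∏ a, gibbs β g' (x a)) *
        ((∑ a, β * (bond (x a) e / Real.sqrt n)) - k * (β / Real.sqrt n * mean β g' e)) * f x) t := by
    simp only [avg, prod_gibbs]
    exact HasDerivAt.fun_sum fun x _ => ((HasDerivAt.fun_sum fun a _ =>
      (hasDerivAt_energy g e (x a) t).const_mul β).sub
        ((hasDerivAt_free β g e t).const_mul (k:ℝ))).exp.mul_const (f x)
  refine h.congr_deriv ?_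
  have e1 : avg β g' (fun x : Fin (k + 1) → Cfg n =>
        f (fun a => x a.castSucc) * ((∑ a : Fin k, bond (x a.castSucc) e) - k * bond (x (Fin.last k)) e))
      = avg β g' (fun x => f x * ∑ a, bond (x a) e) - k * (avg β g' f * mean β g' e) := by
    rw [← avg_castSucc β g' (fun x => f x * ∑ a, bond (x a) e)]
    rw [mean, ← avg_snoc β g' f (fun y => bond y e)]
    simp only [avg, Finset.mul_sum, ← Finset.sum_sub_distrib]
    refine Finset.sum_congr rfl fun x _ => ?_
    simp only [← Finset.mul_sum]; ring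
  rw [e1]
  simp only [avg, Finset.sum_mul, mul_sub, Finset.mul_sum, ← Finset.sum_sub_distrib]
  refine Finset.sum_congr rfl fun x _ => ?_
  simp only [← Finset.mul_sum, ← Finset.sum_div]
  ring

lemma repr_succ (k : ℕ) :
    ∃ (N : ℕ) (c : Fin N → ℝ) (π : Fin N → Fin (k + 1) → Fin (k + 1)),
      ∑ t, |c t| ≤ (2 * ((k : ℝ) + 1)) ^ (k + 1) ∧
      ∀ (n : ℕ) (β : ℝ) (g : Edge n → ℝ) (e : Fin (k + 1) → Edge n),
        dFree β (List.ofFn e) g = (β / Real.sqrt n) ^ (k + 1) *
          ∑ t, c t * avg β g fun x => ∏ i, bond (x (π t i)) (e i) := by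
  induction k with
  | zero =>
    refine ⟨1, fun _ => 1, fun _ i => i, by norm_num, fun n β g e => ?_⟩
    have he : List.ofFn e = [e 0] := by simp
    rw [he]
    show deriv (fun t => free β (Function.update g (e 0) t)) (g (e 0)) = _
    rw [(hasDerivAt_free β g (e 0) (g (e 0))).deriv, Function.update_eq_self]
    simp [avg, mean]
    left
    exact Fintype.sum_equiv (Equiv.funUnique (Fin 1) (Cfg n)).symm _ _ fun x => rfl
  | succ k ih =>
    obtain ⟨N, c, π, hc, hrep⟩ := ih
    let c' : Fin N × Fin (k + 2) → ℝ := fun q =>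
      (if q.2 = Fin.last (k + 1) then -((k : ℝ) + 1) else 1) * c q.1
    let π' : Fin N × Fin (k + 2) → Fin (k + 2) → Fin (k + 2) := fun q =>
      Fin.cons q.2 fun i => (π q.1 i).castSucc
    refine ⟨N * (k + 2), fun t => c' (finProdFinEquiv.symm t), fun t => π' (finProdFinEquiv.symm t), ?_, ?_⟩
    · rw [Equiv.sum_comp finProdFinEquiv.symm (fun q => |c' q|), Fintype.sum_prod_type]
      have hk : ∀ t, ∑ a : Fin (k + 2), |c' (t, a)| = 2 * ((k : ℝ) + 1) * |c t| := fun t => by
        rw [Fin.sum_univ_castSucc]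
        simp only [c', Fin.castSucc_ne_last, if_false, if_true, abs_mul, one_mul, abs_neg,
          Finset.sum_const, Finset.card_univ, Fintype.card_fin, nsmul_eq_mul]
        rw [abs_of_nonneg (by positivity : (0:ℝ) ≤ (k:ℝ) + 1)]
        push_cast; ring
      simp only [hk, ← Finset.mul_sum]
      rw [pow_succ']
      push_cast
      exact mul_le_mul (by linarith) (hc.trans (pow_le_pow_left₀ (by positivity) (by linarith) _))
        (Finset.sum_nonneg fun _ _ => abs_nonneg _) (by positivity)
    · intro n β g e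
      rw [List.ofFn_succ, dFree]
      simp only [hrep n β _ (fun i => e i.succ)]
      rw [((HasDerivAt.fun_sum fun t _ => (hasDerivAt_avg β g (e 0)
        (fun x => ∏ i, bond (x (π t i)) (e i.succ)) (g (e 0))).const_mul (c t)).const_mul _).deriv,
        Function.update_eq_self, pow_succ (β / Real.sqrt n) (k + 1), mul_assoc,
        Equiv.sum_comp finProdFinEquiv.symm
          (fun q => c' q * avg β g fun x => ∏ i, bond (x (π' q i)) (e i)),
        Fintype.sum_prod_type, Finset.mul_sum (a := β / Real.sqrt n)]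
      congr 1
      refine Finset.sum_congr rfl fun t _ => ?_
      simp only [avg, Finset.mul_sum]
      rw [Finset.sum_comm]
      refine Finset.sum_congr rfl fun x _ => ?_
      simp only [Fin.prod_univ_succ (n := k + 1), π', c', Fin.cons_zero, Fin.cons_succ]
      conv_rhs => rw [Fin.sum_univ_castSucc]
      simp only [Fin.castSucc_ne_last, if_false, if_true]
      rw [← Finset.mul_sum, ← Finset.mul_sum, ← Finset.mul_sum, ← Finset.sum_mul]
      push_cast; ring

/-- replica expansion of the `k`-th derivative, with coefficients depending on `k` only -/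
theorem dFree_repr (k : ℕ) (hk : 0 < k) :
    ∃ (N : ℕ) (c : Fin N → ℝ) (π : Fin N → Fin k → Fin k),
      ∑ t, |c t| ≤ (2 * (k : ℝ)) ^ k ∧
      ∀ (n : ℕ) (β : ℝ) (g : Edge n → ℝ) (e : Fin k → Edge n),
        dFree β (List.ofFn e) g =
          (β / Real.sqrt n) ^ k * ∑ t, c t * avg β g fun x => ∏ i, bond (x (π t i)) (e i) := by
  obtain ⟨j, rfl⟩ : ∃ j, k = j + 1 := ⟨k - 1, by omega⟩
  simpa only [Nat.cast_add, Nat.cast_one] using repr_succ j

lemma continuous_free (β : ℝ) : Continuous (free (n := n) β) := by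
  unfold free
  refine Continuous.log ?_ fun g => (partition_pos β g).ne'
  unfold partition energy
  fun_prop

lemma continuous_avg (β : ℝ) {k : ℕ} (f : (Fin k → Cfg n) → ℝ) : Continuous fun g => avg β g f := by
  have := continuous_free (n := n) β
  simp only [avg, prod_gibbs]
  unfold energy
  fun_prop

lemma exists_ofFn {α : Type*} (l : List α) (hl : l ≠ []) : ∃ (k : ℕ) (e : Fin k → α), 0 < k ∧ k = l.length ∧ l = List.ofFn e :=
  ⟨l.length, l.get, List.length_pos_iff.2 hl, rfl, (List.ofFn_get l).symm⟩

theorem continuous_dFree (β : ℝ) (l : List (Edge n)) : Continuous (dFree β l) := by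
  rcases eq_or_ne l [] with rfl | hl
  · exact continuous_free β
  · obtain ⟨k, e, hk, -, rfl⟩ := exists_ofFn l hl
    obtain ⟨N, c, π, -, hr⟩ := dFree_repr k hk
    have : dFree β (List.ofFn e) = fun g => (β / Real.sqrt n) ^ k * ∑ t, c t * avg β g fun x => ∏ i, bond (x (π t i)) (e i) :=
      funext fun g => hr n β g e
    rw [this]
    exact continuous_const.mul (continuous_finsetSum _ fun t _ => continuous_const.mul (continuous_avg β _))

theorem hasDerivAt_dFree (β : ℝ) (e : Edge n) (l : List (Edge n)) (g : Edge n → ℝ) (t : ℝ) :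
    HasDerivAt (fun s => dFree β l (Function.update g e s)) (dFree β (e :: l) (Function.update g e t)) t := by
  have hd : DifferentiableAt ℝ (fun s => dFree β l (Function.update g e s)) t := by
    rcases eq_or_ne l [] with rfl | hl
    · exact (hasDerivAt_free β g e t).differentiableAt
    · obtain ⟨k, f, hk, -, rfl⟩ := exists_ofFn l hl
      obtain ⟨N, c, π, -, hr⟩ := dFree_repr k hk
      simp only [hr n β _ f]
      exact ((HasDerivAt.fun_sum fun i _ => (hasDerivAt_avg β g e
        (fun x => ∏ j, bond (x (π i j)) (f j)) t).const_mul (c i)).const_mul _).differentiableAt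
  rw [dFree]
  simp only [Function.update_idem, Function.update_self]
  exact hd.hasDerivAt

theorem free_bound (β : ℝ) : ∃ C M : ℝ, 0 ≤ M ∧ ∀ g : Edge n → ℝ, |free β g| ≤ C * Real.exp (M * l1 g) := by
  set B := |β| / Real.sqrt n with hB
  have hB0 : 0 ≤ B := by positivity
  refine ⟨n + B, 1, zero_le_one, fun g => ?_⟩
  have hE : ∀ x, |β * energy g x| ≤ B * l1 g := fun x => by
    rw [energy, l1, hB, abs_mul, abs_mul, abs_of_nonneg (by positivity : (0:ℝ) ≤ 1 / Real.sqrt n)]
    calc |β| * (1 / Real.sqrt n * |∑ e, g e * bond x e|) ≤ |β| * (1 / Real.sqrt n * ∑ e, |g e|) := by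
          refine mul_le_mul_of_nonneg_left (mul_le_mul_of_nonneg_left ?_ (by positivity)) (abs_nonneg _)
          refine (Finset.abs_sum_le_sum_abs _ _).trans_eq (Finset.sum_congr rfl fun e _ => ?_)
          rw [abs_mul, abs_bond, mul_one]
      _ = _ := by ring
  have hup : free β g ≤ n + B * l1 g := by
    rw [← Real.exp_le_exp, exp_free, Real.exp_add]
    refine (Finset.sum_le_card_nsmul _ _ (Real.exp (B * l1 g)) fun x _ =>
      Real.exp_le_exp.2 ((le_abs_self _).trans (hE x))).trans ?_
    rw [nsmul_eq_mul]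
    refine mul_le_mul_of_nonneg_right ?_ (Real.exp_pos _).le
    rw [Finset.card_univ, Fintype.card_fun, Fintype.card_bool, Fintype.card_fin, ← Real.exp_one_pow n]
    push_cast
    exact pow_le_pow_left₀ (by norm_num) (by linarith [Real.add_one_le_exp (1:ℝ)]) _
  have hlo : -(B * l1 g) ≤ free β g := by
    rw [← Real.exp_le_exp, exp_free]
    exact (Real.exp_le_exp.2 (neg_le_of_abs_le (hE fun _ => true))).trans
      (Finset.single_le_sum (f := fun x => Real.exp (β * energy g x)) (fun _ _ => (Real.exp_pos _).le)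
        (Finset.mem_univ _))
  have hl := Vale.Agent.P150.l1_nonneg g
  have h1 : (1:ℝ) ≤ Real.exp (1 * l1 g) := Real.one_le_exp (by linarith)
  have h2 : l1 g ≤ Real.exp (1 * l1 g) := by linarith [Real.add_one_le_exp (1 * l1 g)]
  rw [abs_le]
  have := mul_le_mul_of_nonneg_left h1 (Nat.cast_nonneg (α := ℝ) n)
  have := mul_le_mul_of_nonneg_left h2 hB0
  have := Nat.cast_nonneg (α := ℝ) n
  constructor <;> nlinarith

lemma abs_avg_le (β : ℝ) (g : Edge n → ℝ) {k : ℕ} (f : (Fin k → Cfg n) → ℝ) (hf : ∀ x, |f x| ≤ 1) :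
    |avg β g f| ≤ 1 := by
  have h1 : ∑ x : Fin k → Cfg n, ∏ a, gibbs β g (x a) = 1 := by
    rw [← Fintype.sum_pow]; simp [sum_gibbs]
  refine (Finset.abs_sum_le_sum_abs _ _).trans (le_of_le_of_eq (Finset.sum_le_sum fun x _ => ?_) h1)
  rw [abs_mul, abs_of_nonneg (Finset.prod_nonneg fun a _ => gibbs_nonneg β g (x a))]
  exact mul_le_of_le_one_right (Finset.prod_nonneg fun a _ => gibbs_nonneg β g (x a)) (hf x)

theorem dFree_bound (β : ℝ) (l : List (Edge n)) (hl : l ≠ []) (g : Edge n → ℝ) :
    |dFree β l g| ≤ (|β| / Real.sqrt n * (2 * l.length)) ^ l.length := by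
  obtain ⟨k, e, hk, hlen, rfl⟩ := exists_ofFn l hl
  rw [← hlen]
  obtain ⟨N, c, π, hc, hr⟩ := dFree_repr k hk
  rw [hr n β g e, abs_mul, abs_pow, abs_div, abs_of_nonneg (Real.sqrt_nonneg _), mul_pow]
  refine mul_le_mul_of_nonneg_left ?_ (by positivity)
  refine ((Finset.abs_sum_le_sum_abs _ _).trans (Finset.sum_le_sum fun t _ => ?_)).trans hc
  rw [abs_mul]
  exact mul_le_of_le_one_right (abs_nonneg _)
    (abs_avg_le β g _ fun x => le_of_eq (by simp [Finset.abs_prod, abs_bond]))

/-- the action of a vertex permutation on the pairs -/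
def moveEdge (σ : Equiv.Perm (Fin n)) (e : Edge n) : Edge n :=
  if h : σ e.1.1 < σ e.1.2 then ⟨(σ e.1.1, σ e.1.2), h⟩
  else ⟨(σ e.1.2, σ e.1.1), lt_of_le_of_ne (not_lt.1 h) fun hh => e.2.ne (σ.injective hh.symm)⟩

lemma moveEdge_move (σ : Equiv.Perm (Fin n)) (e : Edge n) : moveEdge σ.symm (moveEdge σ e) = e := by
  obtain ⟨⟨a, b⟩, hab⟩ := e
  simp only at hab
  by_cases h : σ a < σ b <;> simp [moveEdge, h, hab, hab.not_gt]

/-- the permutation of pairs induced by a permutation of vertices -/
def edgePerm (σ : Equiv.Perm (Fin n)) : Equiv.Perm (Edge n) where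
  toFun := moveEdge σ
  invFun := moveEdge σ.symm
  left_inv := moveEdge_move σ
  right_inv e := by simpa using moveEdge_move σ.symm e

lemma edgePerm_cases (σ : Equiv.Perm (Fin n)) (e : Edge n) :
    (edgePerm σ e).1 = (σ e.1.1, σ e.1.2) ∨ (edgePerm σ e).1 = (σ e.1.2, σ e.1.1) := by
  show (moveEdge σ e).1 = _ ∨ (moveEdge σ e).1 = _
  unfold moveEdge
  split
  · exact Or.inl rfl
  · exact Or.inr rfl

lemma bond_edgePerm (σ : Equiv.Perm (Fin n)) (x : Cfg n) (e : Edge n) :
    bond x (edgePerm σ e) = bond (x ∘ σ) e := by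
  rcases edgePerm_cases σ e with h | h <;> simp [bond, h, mul_comm]

lemma relabel_apply (σ : Equiv.Perm (Fin n)) (α : Idx n) (e : Edge n) :
    relabel σ α e = α ((edgePerm σ).symm e) := by
  have h : ∀ e₀ : Edge n, pairIdx (σ e₀.1.1) (σ e₀.1.2) e = if e₀ = (edgePerm σ).symm e then 1 else 0 := by
    intro e₀
    have hi : (e.1 = (σ e₀.1.1, σ e₀.1.2) ∨ e.1 = (σ e₀.1.2, σ e₀.1.1)) ↔ e₀ = (edgePerm σ).symm e := by
      rw [Equiv.eq_symm_apply, Subtype.ext_iff]
      have h1 := (edgePerm σ e₀).2
      have h2 := e.2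
      rcases edgePerm_cases σ e₀ with hc | hc <;> simp only [hc] at h1 ⊢ <;>
        constructor <;> intro hh
      · rcases hh with hh | hh
        · exact hh.symm
        · simp only [hh] at h2; exact absurd h2 h1.not_gt
      · exact Or.inl hh.symm
      · rcases hh with hh | hh
        · simp only [hh] at h2; exact absurd h2 h1.not_gt
        · exact hh.symm
      · exact Or.inr hh.symm
    simp only [pairIdx, hi]
  simp [relabel, Finset.sum_apply, h]

theorem coef_relabel (β : ℝ) (σ : Equiv.Perm (Fin n)) (α : Idx n) : coef β (relabel σ α) = coef β α := by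
  have hfree : ∀ g : Edge n → ℝ, free β (fun e => g (edgePerm σ e)) = free β g := fun g => by
    unfold free partition
    congr 1
    refine Fintype.sum_equiv (Equiv.arrowCongr σ (Equiv.refl Bool)) _ _ fun x => ?_
    congr 2
    unfold energy
    congr 1
    refine Fintype.sum_equiv (edgePerm σ) _ _ fun e => ?_
    rw [bond_edgePerm]
    congr 2
    funext i
    simp [Equiv.arrowCongr]
  have hHe : ∀ g : Edge n → ℝ, He (relabel σ α) g = He α (fun e => g (edgePerm σ e)) := fun g => by
    unfold He
    refine (Fintype.prod_equiv (edgePerm σ) _ _ fun e => ?_).symm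
    rw [relabel_apply, Equiv.symm_apply_apply]
  have hmp : MeasurePreserving (MeasurableEquiv.piCongrLeft (fun _ : Edge n => ℝ) (edgePerm σ).symm)
      (gauss (Edge n)) (gauss (Edge n)) :=
    measurePreserving_piCongrLeft (fun _ : Edge n => gaussianReal 0 1) (edgePerm σ).symm
  have hap : ∀ g : Edge n → ℝ, MeasurableEquiv.piCongrLeft (fun _ : Edge n => ℝ) (edgePerm σ).symm g
      = fun e => g (edgePerm σ e) := fun g => funext fun e => by
    simp [MeasurableEquiv.coe_piCongrLeft, Equiv.piCongrLeft, Equiv.piCongrLeft']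
  unfold coef
  conv_rhs => rw [← hmp.integral_comp' (fun g => free β g * He α g)]
  refine integral_congr_ae (Filter.Eventually.of_forall fun g => ?_)
  simp only [hap, hfree, hHe]

lemma he_neg (k : ℕ) (x : ℝ) : he k (-x) = (-1) ^ k * he k x := by
  induction k using Nat.twoStepInduction with
  | zero => simp [he]
  | one => simp [he]
  | more m h1 h2 => simp only [he, h1, h2, pow_succ]; ring

theorem coef_eq_zero_of_odd (β : ℝ) (α : Idx n) (_hα : α ≠ 0) (v : Fin n) (hv : Odd (vdeg α v)) :
    coef β α = 0 := by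
  set ε : Edge n → ℝ := fun e => if e.1.1 = v ∨ e.1.2 = v then -1 else 1 with hε
  have hεc : ∀ e, ε e = 1 ∨ ε e = -1 := fun e => by
    by_cases h : e.1.1 = v ∨ e.1.2 = v <;> simp [hε, h]
  have h1map : ∀ e, Measure.map (fun y => ε e * y) (gaussianReal 0 1) = gaussianReal 0 1 := fun e => by
    rcases hεc e with h | h
    · simp [h]
    · simp only [h, neg_one_mul]
      exact (gaussianReal_map_neg).trans (by simp)
  have hmp : MeasurePreserving (fun (g : Edge n → ℝ) e => ε e * g e) (gauss (Edge n)) (gauss (Edge n)) := by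
    refine measurePreserving_pi _ _ fun e => ⟨measurable_const_mul _, ?_⟩
    rw [h1map e]
  let flip : Equiv.Perm (Cfg n) :=
    { toFun := fun x => Function.update x v (!x v)
      invFun := fun x => Function.update x v (!x v)
      left_inv := fun x => by simp
      right_inv := fun x => by simp }
  have hbond : ∀ x e, bond (flip x) e = ε e * bond x e := fun x e => by
    have hs : spin (!x v) = - spin (x v) := by cases x v <;> simp [spin]
    have hne := e.2.ne
    by_cases h1 : e.1.1 = v
    · have h2 : e.1.2 ≠ v := fun h => hne (h1.trans h.symm)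
      simp [bond, flip, hε, h1, h2, hs]
    · by_cases h2 : e.1.2 = v <;> simp [bond, flip, hε, h1, h2, hs]
  have hfree : ∀ g, free β (fun e => ε e * g e) = free β g := fun g => by
    unfold free partition
    congr 1
    refine Fintype.sum_equiv flip _ _ fun x => ?_
    congr 2
    unfold energy
    congr 1
    refine Finset.sum_congr rfl fun e _ => ?_
    rw [hbond]; ring
  have hHe : ∀ g, He α (fun e => ε e * g e) = - He α g := fun g => by
    have h1 : ∀ e, he (α e) (ε e * g e)
        = (-1) ^ (if e.1.1 = v ∨ e.1.2 = v then α e else 0) * he (α e) (g e) := fun e => by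
      by_cases h : e.1.1 = v ∨ e.1.2 = v <;> simp [hε, h, he_neg]
    simp only [He, h1, Finset.prod_mul_distrib, Finset.prod_pow_eq_pow_sum]
    have hv' : Odd (∑ e : Edge n, if e.1.1 = v ∨ e.1.2 = v then α e else 0) := hv
    rw [hv'.neg_one_pow, neg_one_mul]
  have hemb : MeasurableEmbedding fun (g : Edge n → ℝ) e => ε e * g e :=
    (MeasurableEquiv.piCongrRight fun e => MeasurableEquiv.mulLeft₀ (ε e)
      (by rcases hεc e with h | h <;> simp [h])).measurableEmbedding
  have h := hmp.integral_comp hemb (fun g => free β g * He α g)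
  simp only [hfree, hHe, mul_neg, integral_neg] at h
  unfold coef
  linarith

end Vale.Agent.P146
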