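import Vale.Agent.P146.PieceBound
import Vale.Agent.P146.Decomp
import Vale.Agent.P146.Deriv

/-!
The low Hermite chaos of the free energy.

Every even multigraph of degree at most `K` is a placed piece plus a rest. A piece with `c` pins and
`r` chains has at most `K^{O(r)}` shapes and `n^{c+m}` placements, against the mass `K^{O(r)} n^{-(r+m)}`
of `piece_bound`.
-/

noncomputable section

namespace Vale.Agent.P146

namespace Piece

variable {V : Type*} (P : Piece V)

/-- the handshake count: at most two outer edges per chain -/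
lemma valid_count (hP : P.Valid) :
    2 * P.m ≤ 2 * P.inner.card + P.k ∧ P.m ≤ P.size ∧ P.k ≤ 2 * P.order := by
  have h : ∑ j, P.fdeg j = 2 * P.m := by simp [hP.deg_two, mul_comm]
  simp only [fdeg, Finset.sum_add_distrib, Finset.card_filter] at h
  have e1 : ∑ j, ∑ i ∈ P.inner, (if i = j then 1 else 0) = P.inner.card := by
    rw [Finset.sum_comm]; simp
  have e2 : ∑ j, ∑ i ∈ P.inner, (if P.next i = j then 1 else 0) = P.inner.card := by
    rw [Finset.sum_comm]; simp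
  have e3 : ∑ j, ∑ x, (if (P.ext x).2.getLeft? = some j then 1 else 0) ≤ P.k := by
    rw [Finset.sum_comm]
    refine (Finset.sum_le_sum (g := fun _ => 1) fun x _ => ?_).trans (by simp)
    rcases (P.ext x).2 with i | v <;> simp
  have hm : 2 * P.m ≤ 2 * P.inner.card + P.k := by
    rw [e1, e2] at h; omega
  unfold order size
  omega

/-- at most one unlinked position per chain -/
lemma card_unlinked (hP : P.Valid) :
    (Finset.univ.filter fun j => P.link j = false).card ≤ P.order := by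
  have h := P.valid_count hP
  have hs : P.inner.card + (Finset.univ.filter fun j => P.link j = false).card = P.m := by
    have := Finset.card_filter_add_card_filter_not (s := (Finset.univ : Finset (Fin P.m)))
      (fun j => P.link j = true)
    simpa [inner] using this
  unfold order size at *
  omega

end Piece

/-- data of a placed piece with `r` chains and `c` pins -/
abbrev Code (n K : ℕ) :=
  Σ r : Fin (K + 1), Σ c : Fin ((r : ℕ) + 1), Σ m : Fin (K + 1), Σ k : Fin (2 * (r : ℕ) + 1),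
    ((Fin (r : ℕ) → Fin (K + 1)) × (Fin (k : ℕ) → Fin (c : ℕ) × (Fin (m : ℕ) ⊕ Fin (c : ℕ)))) ×
      ((Fin (c : ℕ) → Fin n) × (Fin (m : ℕ) → Fin n))

/-- the shape: all positions linked except the listed ones -/
abbrev shape {r c m k K : ℕ} (S : Fin r → Fin (K + 1)) (ext : Fin k → Fin c × (Fin m ⊕ Fin c)) :
    Piece (Fin c) :=
  ⟨m, k, fun j => decide (∀ i, (S i : ℕ) ≠ j), ext⟩

variable {n K : ℕ}

/-- the placed piece of a code -/
abbrev codePiece : Code n K → Piece (Fin n)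
  | ⟨_, _, _, _, ⟨S, ext⟩, ⟨pins, _⟩⟩ => (shape S ext).map pins

/-- the placement of the free vertices of a code -/
abbrev codePlace : (x : Code n K) → Fin (codePiece x).m → Fin n
  | ⟨_, _, _, _, ⟨_, _⟩, ⟨_, φ⟩⟩ => φ

/-- the codes that occur -/
structure CodeOK (x : Code n K) : Prop where
  valid : (codePiece x).Valid
  good : (codePiece x).Good (codePlace x)
  kpos : 0 < (codePiece x).k
  size_le : (codePiece x).size ≤ K
  order_eq : (codePiece x).order = x.1
  pins : 0 < (x.1 : ℕ) ∧ (2 * (x.2.1 : ℕ) ≤ x.1 ∨ ((x.2.1 : ℕ) = 1 ∧ (x.1 : ℕ) = 1))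

/-- every representation has a code -/
lemma exists_code {c : ℕ} (P : Piece (Fin c)) (pins : Fin c → Fin n) (φ : Fin P.m → Fin n)
    (R : Idx n) (α : Idx n) (hv : (P.map pins).Valid) (hg : (P.map pins).Good φ) (hk : 0 < P.k)
    (hs : P.size ≤ K) (ho : 2 * c ≤ P.order ∨ (c = 1 ∧ P.order = 1))
    (heq : α = (P.map pins).idx φ + R) (hR : ∀ j, vdeg R (φ j) = 0) :
    ∃ x : Code n K, CodeOK x ∧ α = (codePiece x).idx (codePlace x) + R ∧
      ∀ j, vdeg R (codePlace x j) = 0 := by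
  classical
  have hcount : 2 * P.m ≤ 2 * P.inner.card + P.k ∧ P.m ≤ P.size ∧ P.k ≤ 2 * P.order :=
    (P.map pins).valid_count hv
  have hun : (Finset.univ.filter fun j => P.link j = false).card ≤ P.order :=
    (P.map pins).card_unlinked hv
  have hm : P.m < K + 1 := by omega
  have hpins : 0 < P.order ∧ (2 * c ≤ P.order ∨ (c = 1 ∧ P.order = 1)) := ⟨by omega, ho⟩
  obtain ⟨r, hro⟩ : ∃ r, P.order = r := ⟨_, rfl⟩
  have hr : r < K + 1 := by rw [← hro]; unfold Piece.order; omega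
  obtain ⟨S, hlink⟩ : ∃ S : Fin r → Fin (K + 1),
      P.link = fun j : Fin P.m => decide (∀ i, (S i : ℕ) ≠ j) := by
    set T := Finset.univ.filter fun j => P.link j = false with hT
    refine ⟨fun i => if h : (i : ℕ) < T.card then ⟨(T.orderEmbOfFin rfl ⟨i, h⟩ : Fin P.m), by
      have := (T.orderEmbOfFin rfl ⟨i, h⟩).2; omega⟩ else ⟨P.m, hm⟩, funext fun j => ?_⟩
    cases hj : P.link j
    · have : j ∈ Set.range (T.orderEmbOfFin rfl) := by
        rw [Finset.range_orderEmbOfFin]; simp [hT, hj]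
      obtain ⟨i, hi⟩ := this
      simp only [false_eq_decide_iff, not_forall, not_not]
      exact ⟨⟨i, lt_of_lt_of_le i.2 (hun.trans_eq hro)⟩, by simp [i.2, hi]⟩
    · simp only [true_eq_decide_iff]
      intro i hi
      split_ifs at hi with h
      · have := T.orderEmbOfFin_mem rfl ⟨i, h⟩
        rw [show T.orderEmbOfFin rfl ⟨i, h⟩ = j from Fin.ext hi] at this
        simp [hT, hj] at this
      · exact absurd hi j.2.ne'
  obtain ⟨m, k, link, ext⟩ := P
  change link = fun j : Fin m => decide (∀ i, (S i : ℕ) ≠ (j : ℕ)) at hlink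
  subst hlink
  refine ⟨⟨⟨r, hr⟩, ⟨c, ?_⟩, ⟨m, hm⟩, ⟨k, ?_⟩, (S, ext), (pins, φ)⟩,
    ⟨hv, hg, hk, hs, hro, hro ▸ hpins⟩, heq, hR⟩
  · show c < r + 1
    omega
  · show k < 2 * r + 1
    have : k ≤ 2 * r := hro ▸ hcount.2.2
    omega

/-- the bound on the mass of a code -/
def codeWeight (C₀ : ℕ) (x : Code n K) : ℝ :=
  if 0 < (x.1 : ℕ) ∧ (2 * (x.2.1 : ℕ) ≤ x.1 ∨ ((x.2.1 : ℕ) = 1 ∧ (x.1 : ℕ) = 1)) then
    (K : ℝ) ^ (C₀ * x.1) / (n : ℝ) ^ ((x.1 : ℕ) + x.2.2.1) else 0

lemma codeWeight_nonneg (C₀ : ℕ) (x : Code n K) : 0 ≤ codeWeight C₀ x := by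
  unfold codeWeight; split <;> positivity

/-- the number of shapes is `K^{O(r)}` -/
lemma shape_count {r c : ℕ} (hK : 2 ≤ K) (hr : r ≤ K) (hc : c ≤ r) (hr0 : 0 < r) :
    ∑ m : Fin (K + 1), ∑ k : Fin (2 * r + 1), (K + 1) ^ r * (c * ((m : ℕ) + c)) ^ (k : ℕ) ≤
      K ^ (12 * r) := by
  have h1 : ∀ m : Fin (K + 1), ∀ k : Fin (2 * r + 1),
      (K + 1) ^ r * (c * ((m : ℕ) + c)) ^ (k : ℕ) ≤ (K + 1) ^ r * (K ^ 3) ^ (2 * r) := fun m k => by
    refine Nat.mul_le_mul_left _ ?_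
    have hm : (m : ℕ) + c ≤ K + K := by omega
    have : c * ((m : ℕ) + c) ≤ K ^ 3 :=
      calc c * ((m : ℕ) + c) ≤ K * (K + K) := Nat.mul_le_mul (hc.trans hr) hm
        _ = 2 * K ^ 2 := by ring
        _ ≤ K * K ^ 2 := Nat.mul_le_mul_right _ hK
        _ = K ^ 3 := by ring
    exact (Nat.pow_le_pow_left this _).trans
      (Nat.pow_le_pow_right (Nat.pos_of_ne_zero (by positivity)) (by omega))
  refine (Finset.sum_le_sum fun m _ => Finset.sum_le_sum fun k _ => h1 m k).trans ?_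
  simp only [Finset.sum_const, Finset.card_univ, Fintype.card_fin, smul_eq_mul]
  have hK1 : K + 1 ≤ K ^ 2 := by nlinarith
  have h2 : 2 * r + 1 ≤ K ^ (2 * r) :=
    calc 2 * r + 1 ≤ 2 ^ (2 * r) := Nat.lt_two_pow_self
      _ ≤ K ^ (2 * r) := Nat.pow_le_pow_left hK _
  calc (K + 1) * ((2 * r + 1) * ((K + 1) ^ r * (K ^ 3) ^ (2 * r)))
      ≤ (K ^ 2) ^ r * (K ^ (2 * r) * ((K ^ 2) ^ r * (K ^ 3) ^ (2 * r))) := by
        refine Nat.mul_le_mul (hK1.trans ?_) (Nat.mul_le_mul h2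
          (Nat.mul_le_mul_right _ (Nat.pow_le_pow_left hK1 _)))
        exact Nat.le_self_pow hr0.ne' _
    _ = K ^ (12 * r) := by simp only [← pow_mul, ← pow_add]; congr 1; ring

/-- all codes with `r` chains and `c` pins weigh at most `K^{C₀+12}` -/
lemma sum_codeWeight_le {C₀ : ℕ} (hK : 2 ≤ K) (hn : K ^ (2 * (C₀ + 12)) ≤ n)
    (r : Fin (K + 1)) (c : Fin ((r : ℕ) + 1)) :
    ∑ y, codeWeight (n := n) (K := K) C₀ ⟨r, c, y⟩ ≤ (K : ℝ) ^ (C₀ + 12) := by
  have hn0 : 0 < n := lt_of_lt_of_le (pow_pos (by omega) _) hn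
  have hnR : (0 : ℝ) < n := by exact_mod_cast hn0
  by_cases hcase : 0 < (r : ℕ) ∧ (2 * (c : ℕ) ≤ r ∨ ((c : ℕ) = 1 ∧ (r : ℕ) = 1))
  swap
  · simp only [codeWeight, if_neg hcase, Finset.sum_const_zero]
    positivity
  have hKR : (1 : ℝ) ≤ K := by exact_mod_cast (show 1 ≤ K by omega)
  have hcr : (c : ℕ) ≤ r := Nat.lt_succ_iff.1 c.2
  have key : ∑ y, codeWeight (n := n) (K := K) C₀ ⟨r, c, y⟩ =
      ((∑ m : Fin (K + 1), ∑ k : Fin (2 * (r : ℕ) + 1),
        (K + 1) ^ (r : ℕ) * ((c : ℕ) * ((m : ℕ) + c)) ^ (k : ℕ) : ℕ) : ℝ) *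
          ((K : ℝ) ^ (C₀ * r) * (n : ℝ) ^ (c : ℕ) / (n : ℝ) ^ (r : ℕ)) := by
    simp only [codeWeight, if_pos hcase, Fintype.sum_sigma, Nat.cast_sum, Finset.sum_mul]
    refine Finset.sum_congr rfl fun m _ => Finset.sum_congr rfl fun k _ => ?_
    simp only [Finset.sum_const, Finset.card_univ, Fintype.card_prod, Fintype.card_fun,
      Fintype.card_fin, Fintype.card_sum, nsmul_eq_mul, pow_add]
    push_cast
    field_simp
  rw [key]
  refine (mul_le_mul_of_nonneg_right (Nat.cast_le.2 (shape_count hK (Nat.lt_succ_iff.1 r.2) hcr hcase.1))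
    (by positivity)).trans ?_
  rw [Nat.cast_pow, ← mul_div_assoc, ← mul_assoc, ← pow_add,
    show 12 * (r : ℕ) + C₀ * r = (C₀ + 12) * r by ring, div_le_iff₀ (by positivity)]
  rcases hcase.2 with h2 | ⟨h1, h1'⟩
  · have hsplit : (n : ℝ) ^ (r : ℕ) = (n : ℝ) ^ (c : ℕ) * (n : ℝ) ^ ((r : ℕ) - c) := by
      rw [← pow_add, Nat.add_sub_cancel' hcr]
    have hbase : (K : ℝ) ^ ((C₀ + 12) * r) ≤ (n : ℝ) ^ ((r : ℕ) - c) := by
      calc (K : ℝ) ^ ((C₀ + 12) * r) ≤ (K : ℝ) ^ (2 * (C₀ + 12) * ((r : ℕ) - c)) := by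
            refine pow_le_pow_right₀ hKR ?_
            rw [mul_comm 2 (C₀ + 12), mul_assoc]
            exact Nat.mul_le_mul_left _ (by omega)
        _ = ((K : ℝ) ^ (2 * (C₀ + 12))) ^ ((r : ℕ) - c) := pow_mul _ _ _
        _ ≤ (n : ℝ) ^ ((r : ℕ) - c) := by gcongr; exact_mod_cast hn
    rw [hsplit]
    calc (K : ℝ) ^ ((C₀ + 12) * r) * (n : ℝ) ^ (c : ℕ)
        ≤ (n : ℝ) ^ ((r : ℕ) - c) * (n : ℝ) ^ (c : ℕ) := by gcongr
      _ = 1 * ((n : ℝ) ^ (c : ℕ) * (n : ℝ) ^ ((r : ℕ) - c)) := by ring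
      _ ≤ _ := mul_le_mul_of_nonneg_right (one_le_pow₀ hKR) (by positivity)
  · rw [h1, h1', mul_one]

lemma fac_le_of_le {R α : Idx n} (h : ∀ e, R e ≤ α e) : fac R ≤ fac α :=
  Finset.prod_le_prod (fun e _ => Nat.cast_nonneg _) fun e _ => Nat.cast_le.2 (Nat.factorial_le (h e))

/-- chaos of degree at most `K` carries a variance polynomial in `K` -/
theorem low_chaos_bound : ∃ C : ℕ, ∀ (n K : ℕ) (β : ℝ),
    2 ≤ K → 1 + β ^ 2 ≤ K → K ^ C ≤ n → n ≤ 2 ^ K →
    ∑ α ∈ (idxLe n K).erase 0, coef β α ^ 2 / fac α ≤ (K : ℝ) ^ C := by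
  classical
  obtain ⟨C₀, hC₀⟩ := piece_bound
  refine ⟨2 * (C₀ + 12) + 4, fun n K β hK hβ hn hn2 => ?_⟩
  have hK1 : 1 ≤ K := by omega
  have hnC₀ : K ^ C₀ ≤ n := (Nat.pow_le_pow_right hK1 (by omega)).trans hn
  have hnC₁ : K ^ (2 * (C₀ + 12)) ≤ n := (Nat.pow_le_pow_right hK1 (by omega)).trans hn
  set θ : Idx n → ℝ := fun α => coef β α ^ 2 / fac α with hθ
  have hθ0 : ∀ α, 0 ≤ θ α := fun α => div_nonneg (sq_nonneg _) (fac_pos α).le
  set A := (idxLe n K).erase 0 with hA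
  -- odd multigraphs carry nothing
  rw [← Finset.sum_filter_of_ne (p := fun α => ∀ v, Even (vdeg α v)) fun α hα hne v => by
    by_contra hv
    rw [Nat.not_even_iff_odd] at hv
    rw [coef_eq_zero_of_odd β α (Finset.ne_of_mem_erase hα) v hv] at hne
    simp at hne]
  set E := A.filter fun α => ∀ v, Even (vdeg α v) with hE
  have hrep : ∀ α ∈ E, ∃ p : Code n K × Idx n,
      CodeOK p.1 ∧ α = (codePiece p.1).idx (codePlace p.1) + p.2 ∧
        (∀ j, vdeg p.2 (codePlace p.1 j) = 0) ∧ deg p.2 + (codePiece p.1).size ≤ K := by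
    intro α hα
    rw [hE, Finset.mem_filter, hA, Finset.mem_erase] at hα
    obtain ⟨c, P, pins, φ, R, -, hv, hg, heq, hR, -, hk, hsize, ho⟩ :=
      exists_piece α hα.1.1 hα.2
    have hdeg : deg α ≤ K := mem_idxLe.1 hα.1.2
    have hsK : P.size ≤ K := by omega
    obtain ⟨x, hx, hxeq, hxR⟩ := exists_code P pins φ R α hv hg hk hsK ho heq hR
    have hsz : deg ((codePiece x).idx (codePlace x)) = (codePiece x).size :=
      Piece.deg_idx hx.good hx.valid.link_lt hx.valid.no_loop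
    refine ⟨(x, R), hx, hxeq, hxR, ?_⟩
    have := congrArg deg hxeq
    rw [deg_add, hsz] at this
    show deg R + (codePiece x).size ≤ K
    omega
  choose rep hrep using hrep
  have hfib : ∀ x : Code n K,
      ∑ a ∈ E.attach.filter (fun a => (rep a.1 a.2).1 = x), θ a.1 ≤ codeWeight C₀ x := by
    intro x
    by_cases hne : (E.attach.filter fun a => (rep a.1 a.2).1 = x).Nonempty
    swap
    · rw [Finset.not_nonempty_iff_eq_empty] at hne
      rw [hne, Finset.sum_empty]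
      exact codeWeight_nonneg C₀ x
    obtain ⟨a₀, ha₀⟩ := hne
    have hok : CodeOK x := by
      have := (hrep a₀.1 a₀.2).1
      exact (Finset.mem_filter.1 ha₀).2 ▸ this
    obtain ⟨hx1, hx2, hx3, hx4, hx5, hx6⟩ := hok
    have hcount := (codePiece x).valid_count hx1
    have hw : codeWeight C₀ x = (K : ℝ) ^ (C₀ * (codePiece x).order) / (n : ℝ) ^ (codePiece x).size := by
      have hm : (codePiece x).m = (x.2.2.1 : ℕ) := rfl
      have hs : (codePiece x).size = (x.1 : ℕ) + x.2.2.1 := by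
        have h5 := hx5
        unfold Piece.order at h5
        omega
      rw [codeWeight, if_pos hx6, hs]
      simp only [hx5]
    rw [hw]
    refine le_trans ?_ (hC₀ n K β (codePiece x) (codePlace x) hx1 hx2 hx3 hx4 hK hβ hnC₀ hn2)
    have hdata : ∀ a ∈ E.attach.filter (fun a => (rep a.1 a.2).1 = x),
        a.1 = (codePiece x).idx (codePlace x) + (rep a.1 a.2).2 ∧
        (∀ j, vdeg (rep a.1 a.2).2 (codePlace x j) = 0) ∧
        deg (rep a.1 a.2).2 + (codePiece x).size ≤ K := by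
      intro a ha
      have h := (hrep a.1 a.2).2
      have e := (Finset.mem_filter.1 ha).2
      revert h e
      generalize rep a.1 a.2 = p
      rintro h rfl
      exact h
    calc ∑ a ∈ E.attach.filter (fun a => (rep a.1 a.2).1 = x), θ a.1
        ≤ ∑ a ∈ E.attach.filter (fun a => (rep a.1 a.2).1 = x),
            coef β ((codePiece x).idx (codePlace x) + (rep a.1 a.2).2) ^ 2 / fac (rep a.1 a.2).2 := by
          refine Finset.sum_le_sum fun a ha => ?_
          have h := (hdata a ha).1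
          simp only [hθ]
          rw [← h]
          exact div_le_div_of_nonneg_left (sq_nonneg _) (fac_pos _)
            (fac_le_of_le fun e => by have := congrFun h e; rw [Pi.add_apply] at this; omega)
      _ = ∑ R ∈ (E.attach.filter fun a => (rep a.1 a.2).1 = x).image (fun a => (rep a.1 a.2).2),
            coef β ((codePiece x).idx (codePlace x) + R) ^ 2 / fac R := by
          refine (Finset.sum_image
            (f := fun R => coef β ((codePiece x).idx (codePlace x) + R) ^ 2 / fac R)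
            fun a ha b hb hab => Subtype.ext ?_).symm
          rw [(hdata a ha).1, (hdata b hb).1, hab]
      _ ≤ _ := by
          refine Finset.sum_le_sum_of_subset_of_nonneg (fun R hR => ?_)
            (fun R _ _ => div_nonneg (sq_nonneg _) (fac_pos R).le)
          obtain ⟨a, ha, rfl⟩ := Finset.mem_image.1 hR
          obtain ⟨-, h2, h3⟩ := hdata a ha
          rw [Finset.mem_filter, mem_idxLe]
          exact ⟨by omega, h3, h2⟩
  calc ∑ α ∈ E, θ α = ∑ a ∈ E.attach, θ a.1 := (Finset.sum_attach E θ).symm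
    _ = ∑ x, ∑ a ∈ E.attach.filter (fun a => (rep a.1 a.2).1 = x), θ a.1 :=
        (Finset.sum_fiberwise E.attach _ _).symm
    _ ≤ ∑ x : Code n K, codeWeight C₀ x := Finset.sum_le_sum fun x _ => hfib x
    _ = ∑ r : Fin (K + 1), ∑ c : Fin ((r : ℕ) + 1), ∑ y, codeWeight C₀ ⟨r, c, y⟩ := by
        simp only [Fintype.sum_sigma]
    _ ≤ ∑ r : Fin (K + 1), ∑ _c : Fin ((r : ℕ) + 1), (K : ℝ) ^ (C₀ + 12) :=
        Finset.sum_le_sum fun r _ => Finset.sum_le_sum fun c _ => sum_codeWeight_le hK hnC₁ r c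
    _ ≤ ∑ _r : Fin (K + 1), ((K : ℝ) + 1) * (K : ℝ) ^ (C₀ + 12) := by
        refine Finset.sum_le_sum fun r _ => ?_
        simp only [Finset.sum_const, Finset.card_univ, Fintype.card_fin, nsmul_eq_mul]
        refine mul_le_mul_of_nonneg_right ?_ (by positivity)
        exact_mod_cast (show (r : ℕ) + 1 ≤ K + 1 by omega)
    _ ≤ (K : ℝ) ^ (2 * (C₀ + 12) + 4) := by
        simp only [Finset.sum_const, Finset.card_univ, Fintype.card_fin, nsmul_eq_mul]
        have hKR : (1 : ℝ) ≤ K := by exact_mod_cast hK1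
        have h1 : (K : ℝ) + 1 ≤ (K : ℝ) ^ 2 := by exact_mod_cast (show K + 1 ≤ K ^ 2 by nlinarith)
        push_cast
        calc ((K : ℝ) + 1) * (((K : ℝ) + 1) * (K : ℝ) ^ (C₀ + 12))
            ≤ (K : ℝ) ^ 2 * ((K : ℝ) ^ 2 * (K : ℝ) ^ (C₀ + 12)) := by gcongr
          _ = (K : ℝ) ^ (C₀ + 12 + 4) := by rw [← pow_add, ← pow_add]; congr 1; omega
          _ ≤ _ := pow_le_pow_right₀ hKR (by omega)

end Vale.Agent.P146
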