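import Vale.Agent.P146.Chaos
import Vale.Agent.P146.Deriv

/-! Gaussian calculus: Bessel inequality, Hermite identities, variance by low chaos. -/

open MeasureTheory ProbabilityTheory
open Vale.Agent.P150 (gauss l1 l1_nonneg abs_le_l1 gauss_ibp integrable_of_bound stein_one)
open Vale.Agent.P157.Lim (Der)

noncomputable section

namespace Vale.Agent.P146

variable {n : ℕ}

section EB
variable {S : Type*} [Fintype S]

lemma EB.proj (k : S) : EB (fun z : S → ℝ => z k) :=
  ⟨continuous_apply k, 1, 1, zero_le_one, fun z => by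
    rw [one_mul, one_mul]
    exact (abs_le_l1 z k).trans (by linarith [Real.add_one_le_exp (l1 z)])⟩

lemma EB.sub {F G : (S → ℝ) → ℝ} (hF : EB F) (hG : EB G) : EB (fun z => F z - G z) := by
  simpa [sub_eq_add_neg] using hF.add ((EB.const (-1)).mul hG)

lemma EB.prod {α : Type*} (A : Finset α) {F : α → (S → ℝ) → ℝ} (hF : ∀ i ∈ A, EB (F i)) :
    EB (fun z => ∏ i ∈ A, F i z) := by
  classical
  induction A using Finset.induction with
  | empty => simpa using EB.const (S := S) 1
  | insert a A ha ih =>
    simp only [Finset.prod_insert ha]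
    exact (hF a (Finset.mem_insert_self _ _)).mul (ih fun i hi => hF i (Finset.mem_insert_of_mem hi))

lemma EB.integrable {F : (S → ℝ) → ℝ} (hF : EB F) : Integrable F (gauss S) := by
  obtain ⟨hc, C, M, -, hC⟩ := hF
  exact integrable_of_bound hc hC

lemma EB.memLp {F : (S → ℝ) → ℝ} (hF : EB F) : MemLp F 2 (gauss S) := by
  rw [memLp_two_iff_integrable_sq hF.1.aestronglyMeasurable]
  simpa only [sq] using (hF.mul hF).integrable

lemma EB.ibp [DecidableEq S] (k : S) {φ φ' : (S → ℝ) → ℝ} (hφ : EB φ) (hφ' : EB φ')
    (hd : ∀ z t, HasDerivAt (fun s => φ (Function.update z k s)) (φ' (Function.update z k t)) t) :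
    ∫ z, z k * φ z ∂gauss S = ∫ z, φ' z ∂gauss S := by
  obtain ⟨hc, C, M, hM, hC⟩ := hφ
  obtain ⟨hc', C', M', -, hC'⟩ := hφ'
  have h0 : ∀ {D N : ℝ} {G : (S → ℝ) → ℝ}, (∀ z, |G z| ≤ D * Real.exp (N * l1 z)) → 0 ≤ D :=
    fun hG => nonneg_of_mul_nonneg_left ((abs_nonneg _).trans (hG 0)) (Real.exp_pos _)
  refine gauss_ibp (C := max C C') (M := max M M') k (hM.trans (le_max_left _ _)) hc hc'
    (fun z => (hC z).trans ?_) (fun z => (hC' z).trans ?_) hd
  · exact mul_le_mul (le_max_left _ _) (Real.exp_le_exp.2
      (mul_le_mul_of_nonneg_right (le_max_left _ _) (l1_nonneg z))) (Real.exp_pos _).le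
      ((h0 hC).trans (le_max_left _ _))
  · exact mul_le_mul (le_max_right _ _) (Real.exp_le_exp.2
      (mul_le_mul_of_nonneg_right (le_max_right _ _) (l1_nonneg z))) (Real.exp_pos _).le
      ((h0 hC).trans (le_max_left _ _))

end EB

/-! ## Hermite polynomials in one variable -/

lemma mul_he (k : ℕ) (x : ℝ) : x * he k x = he (k + 1) x + k * he (k - 1) x := by
  cases k with
  | zero => simp [he]
  | succ m =>
    simp only [he, add_tsub_cancel_right]
    push_cast; ring

lemma hasDerivAt_he (k : ℕ) (x : ℝ) : HasDerivAt (he k) (k * he (k - 1) x) x := by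
  induction k using Nat.twoStepInduction generalizing x with
  | zero => simpa [show he 0 = fun _ => (1:ℝ) from rfl] using hasDerivAt_const x (1:ℝ)
  | one => simpa [he, show he 1 = fun y : ℝ => y from rfl] using hasDerivAt_id' x
  | more m h1 h2 =>
    have e : he (m + 2) = fun y => y * he (m + 1) y - ((m : ℝ) + 1) * he m y := rfl
    rw [e]
    refine (((hasDerivAt_id' x).mul (h2 x)).sub ((h1 x).const_mul ((m : ℝ) + 1))).congr_deriv ?_
    have := mul_he m x
    simp only [show m + 2 - 1 = m + 1 by omega, Nat.add_sub_cancel]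
    push_cast
    linear_combination ((m : ℝ) + 1) * this

lemma continuous_he (k : ℕ) : Continuous (he k) :=
  continuous_iff_continuousAt.2 fun x => (hasDerivAt_he k x).continuousAt

lemma EB.he {S : Type*} [Fintype S] (s : S) (k : ℕ) : EB (fun z : S → ℝ => he k (z s)) := by
  induction k using Nat.twoStepInduction with
  | zero => exact EB.const 1
  | one => exact EB.proj s
  | more m h1 h2 => exact ((EB.proj s).mul h2).sub ((EB.const ((m : ℝ) + 1)).mul h1)

/-- a one-variable version of `EB` -/
lemma he_bound (k : ℕ) : ∃ C M, 0 ≤ M ∧ ∀ x : ℝ, |Vale.Agent.P146.he k x| ≤ C * Real.exp (M * |x|) := by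
  obtain ⟨-, C, M, hM, hC⟩ := EB.he (S := Fin 1) 0 k
  exact ⟨C, M, hM, fun x => by simpa [l1] using hC fun _ => x⟩

lemma integrable_he_mul (m k : ℕ) : Integrable (fun x => he m x * he k x) (gaussianReal 0 1) := by
  have h := ((EB.he (S := Fin 1) 0 m).mul (EB.he (S := Fin 1) 0 k)).integrable
  have hmp := (measurePreserving_eval (fun _ : Fin 1 => gaussianReal 0 1) 0)
  rw [← hmp.map_eq, integrable_map_measure (f := Function.eval (0 : Fin 1)) (g := fun x => he m x * he k x)
    ((continuous_he m).mul (continuous_he k)).aestronglyMeasurable hmp.measurable.aemeasurable]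
  exact h

lemma he_recursion (m k : ℕ) :
    ∫ x, he (m + 1) x * he k x ∂gaussianReal 0 1 = k * ∫ x, he m x * he (k - 1) x ∂gaussianReal 0 1 := by
  obtain ⟨Cm, Mm, hMm, hm⟩ := he_bound m
  obtain ⟨Ck, Mk, hMk, hk⟩ := he_bound k
  obtain ⟨Cm', Mm', hMm', hm'⟩ := he_bound (m - 1)
  obtain ⟨Ck', Mk', hMk', hk'⟩ := he_bound (k - 1)
  have h0 : ∀ {D N : ℝ} {G : ℝ → ℝ}, (∀ z, |G z| ≤ D * Real.exp (N * |z|)) → 0 ≤ D :=
    fun hG => nonneg_of_mul_nonneg_left ((abs_nonneg _).trans (hG 0)) (Real.exp_pos _)
  set C := Cm * Ck + (m * Cm' * Ck + Cm * (k * Ck')) with hC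
  set M := Mm + Mk + Mm' + Mk' with hM
  have p0 := h0 hm; have p1 := h0 hk; have p2 := h0 hm'; have p3 := h0 hk'
  have hmul : ∀ {a b A B N L : ℝ} {x : ℝ}, |a| ≤ A * Real.exp (N * |x|) → |b| ≤ B * Real.exp (L * |x|) →
      N + L ≤ M → 0 ≤ A → 0 ≤ B → |a * b| ≤ A * B * Real.exp (M * |x|) := fun ha hb hNL hA hB => by
    rw [abs_mul]
    refine (mul_le_mul ha hb (abs_nonneg _) (mul_nonneg hA (Real.exp_pos _).le)).trans ?_
    rw [mul_mul_mul_comm, ← Real.exp_add, ← add_mul]
    exact mul_le_mul_of_nonneg_left (Real.exp_le_exp.2 (mul_le_mul_of_nonneg_right hNL (abs_nonneg _)))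
      (mul_nonneg hA hB)
  have hs := stein_one (f := fun x => he m x * he k x)
    (f' := fun x => m * he (m - 1) x * he k x + he m x * (k * he (k - 1) x)) (C := C) (M := M)
    (fun x => (hasDerivAt_he m x).mul (hasDerivAt_he k x))
    (((continuous_const.mul (continuous_he _)).mul (continuous_he _)).add
      ((continuous_he _).mul (continuous_const.mul (continuous_he _))))
    (fun x => (hmul (hm x) (hk x) (by linarith) p0 p1).trans
      (mul_le_mul_of_nonneg_right (le_add_of_nonneg_right (by positivity)) (Real.exp_pos _).le))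
    (fun x => by
      have e1 := hmul (hm' x) (hk x) (by linarith) p2 p1
      have e2 := hmul (hm x) (hk' x) (by linarith) p0 p3
      refine (abs_add_le _ _).trans ?_
      rw [mul_assoc, abs_mul (m : ℝ), mul_left_comm (he m x), abs_mul (k : ℝ), Nat.abs_cast, Nat.abs_cast]
      refine (add_le_add (mul_le_mul_of_nonneg_left e1 (Nat.cast_nonneg m))
        (mul_le_mul_of_nonneg_left e2 (Nat.cast_nonneg k))).trans ?_
      have := mul_nonneg (mul_nonneg p0 p1) (Real.exp_pos (M * |x|)).le
      rw [hC]; linarith)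
  have e : ∀ x, he (m + 1) x * he k x = x * (he m x * he k x) - m * (he (m - 1) x * he k x) := fun x => by
    have := mul_he m x
    linear_combination (-(he k x)) * this
  have i1 : Integrable (fun x => x * (he m x * he k x)) (gaussianReal 0 1) :=
    ((integrable_he_mul (m + 1) k).add ((integrable_he_mul (m - 1) k).const_mul (m:ℝ))).congr
      (Filter.Eventually.of_forall fun x => by
        simp only [Pi.add_apply]; have := e x; linarith)
  simp only [e]
  rw [integral_sub i1 ((integrable_he_mul _ _).const_mul _), hs,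
    show (fun x => (m:ℝ) * he (m - 1) x * he k x + he m x * (k * he (k - 1) x))
      = fun x => (m:ℝ) * (he (m - 1) x * he k x) + (k:ℝ) * (he m x * he (k - 1) x) from funext fun x => by ring,
    integral_add ((integrable_he_mul _ _).const_mul _) ((integrable_he_mul _ _).const_mul _),
    integral_const_mul, integral_const_mul]
  ring

lemma he_orth (m k : ℕ) :
    ∫ x, he m x * he k x ∂gaussianReal 0 1 = if m = k then (m.factorial : ℝ) else 0 := by
  induction m generalizing k with
  | zero =>
    cases k with
    | zero => simp [he]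
    | succ j =>
      rw [show (fun x => he 0 x * he (j + 1) x) = fun x => he (j + 1) x * he 0 x from
        funext fun x => mul_comm _ _, he_recursion]
      simp
  | succ m ih =>
    rw [he_recursion, ih]
    cases k with
    | zero => simp
    | succ j =>
      simp only [Nat.add_sub_cancel, Nat.add_right_cancel_iff]
      by_cases h : m = j
      · subst h; simp [Nat.factorial_succ]
      · simp [h]

/-! ## Several variables -/

lemma eb_He (α : Idx n) : EB (He α) := EB.prod _ fun e _ => EB.he e (α e)

theorem memLp_He (α : Idx n) : MemLp (He α) 2 (gauss (Edge n)) := (eb_He α).memLp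

lemma He_orth (α γ : Idx n) :
    ∫ g, He α g * He γ g ∂gauss (Edge n) = if α = γ then fac α else 0 := by
  have e : ∀ g : Edge n → ℝ, He α g * He γ g = ∏ i, he (α i) (g i) * he (γ i) (g i) := fun g =>
    Finset.prod_mul_distrib.symm
  simp only [e]
  unfold gauss
  rw [integral_fintype_prod_eq_prod (fun i (t : ℝ) => he (α i) t * he (γ i) t)]
  simp only [he_orth]
  by_cases h : α = γ
  · subst h; simp [fac]
  · obtain ⟨i, hi⟩ := Function.ne_iff.1 h
    rw [if_neg h]
    exact Finset.prod_eq_zero (Finset.mem_univ i) (if_neg hi)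

lemma fac_pos (α : Idx n) : 0 < fac α :=
  Finset.prod_pos fun e _ => by exact_mod_cast Nat.factorial_pos _

theorem bessel {X : (Edge n → ℝ) → ℝ} (hX : MemLp X 2 (gauss (Edge n))) (S : Finset (Idx n)) :
    ∑ α ∈ S, (∫ g, X g * He α g ∂gauss (Edge n)) ^ 2 / fac α ≤ ∫ g, X g ^ 2 ∂gauss (Edge n) := by
  set μ := gauss (Edge n)
  set c : Idx n → ℝ := fun α => (∫ g, X g * He α g ∂μ) / fac α with hc
  set P : (Edge n → ℝ) → ℝ := fun g => ∑ α ∈ S, c α * He α g with hP
  have iXP : ∀ α, Integrable (fun g => X g * He α g) μ := fun α => hX.integrable_mul (memLp_He α)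
  have iHH : ∀ α γ : Idx n, Integrable (fun g => He α g * He γ g) μ := fun α γ =>
    ((eb_He α).mul (eb_He γ)).integrable
  have i1 : Integrable (fun g => X g ^ 2) μ := hX.integrable_sq
  have eXP : (fun g => X g * P g) = fun g => ∑ α ∈ S, c α * (X g * He α g) := funext fun g => by
    simp only [hP, Finset.mul_sum]; exact Finset.sum_congr rfl fun α _ => by ring
  have ePP : (fun g => P g * P g)
      = fun g => ∑ α ∈ S, ∑ γ ∈ S, c α * c γ * (He α g * He γ g) := funext fun g => by
    simp only [hP, Finset.sum_mul, Finset.mul_sum]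
    exact Finset.sum_congr rfl fun α _ => Finset.sum_congr rfl fun γ _ => by ring
  have i2 : Integrable (fun g => X g * P g) μ := by
    rw [eXP]; exact integrable_finsetSum _ fun α _ => (iXP α).const_mul _
  have i3 : Integrable (fun g => P g * P g) μ := by
    rw [ePP]; exact integrable_finsetSum _ fun α _ => integrable_finsetSum _ fun γ _ => (iHH α γ).const_mul _
  have v2 : ∫ g, X g * P g ∂μ = ∑ α ∈ S, (∫ g, X g * He α g ∂μ) ^ 2 / fac α := by
    rw [eXP, integral_finsetSum _ fun α _ => (iXP α).const_mul _]
    refine Finset.sum_congr rfl fun α _ => ?_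
    rw [integral_const_mul, hc]; ring
  have v3 : ∫ g, P g * P g ∂μ = ∑ α ∈ S, (∫ g, X g * He α g ∂μ) ^ 2 / fac α := by
    rw [ePP, integral_finsetSum _ fun α _ => integrable_finsetSum _ fun γ _ => (iHH α γ).const_mul _]
    refine Finset.sum_congr rfl fun α hα => ?_
    rw [integral_finsetSum _ fun γ _ => (iHH α γ).const_mul _]
    simp only [integral_const_mul, μ, He_orth, mul_ite, mul_zero, Finset.sum_ite_eq, hα, if_true]
    have := (fac_pos α).ne'
    simp only [hc, μ]; field_simp
  have h : 0 ≤ ∫ g, (X g - P g) ^ 2 ∂μ := integral_nonneg fun g => sq_nonneg _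
  have e : (fun g => (X g - P g) ^ 2) = fun g => X g ^ 2 - 2 * (X g * P g) + P g * P g :=
    funext fun g => by ring
  have hi : Integrable (fun g => X g ^ 2 - 2 * (X g * P g)) μ := i1.sub (i2.const_mul 2)
  rw [e, integral_add hi i3, integral_sub i1 (i2.const_mul 2), integral_const_mul, v2, v3] at h
  linarith

/-! ## Derivatives of the free energy -/

lemma eb_dFree (β : ℝ) (l : List (Edge n)) : EB (dFree β l) := by
  refine ⟨continuous_dFree β l, ?_⟩
  rcases eq_or_ne l [] with rfl | hl
  · exact free_bound β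
  · exact ⟨(|β| / Real.sqrt n * (2 * l.length)) ^ l.length, 0, le_rfl,
      fun g => (dFree_bound β l hl g).trans_eq (by simp)⟩

lemma differentiable_free (β : ℝ) : Differentiable ℝ (free (n := n) β) := by
  intro g
  unfold free
  refine DifferentiableAt.log ?_ (partition_pos β g).ne'
  unfold partition energy
  fun_prop

lemma differentiable_avg (β : ℝ) {k : ℕ} (f : (Fin k → Cfg n) → ℝ) :
    Differentiable ℝ fun g => avg β g f := by
  have := differentiable_free (n := n) β
  simp only [avg, prod_gibbs]
  unfold energy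
  fun_prop

lemma differentiable_dFree (β : ℝ) (l : List (Edge n)) : Differentiable ℝ (dFree β l) := by
  rcases eq_or_ne l [] with rfl | hl
  · exact differentiable_free β
  · obtain ⟨k, e, hk, -, rfl⟩ := exists_ofFn l hl
    obtain ⟨N, c, π, -, hr⟩ := dFree_repr k hk
    rw [show dFree β (List.ofFn e) = fun g => (β / Real.sqrt n) ^ k *
      ∑ t, c t * avg β g fun x => ∏ i, bond (x (π t i)) (e i) from funext fun g => hr n β g e]
    exact (Differentiable.fun_sum fun t _ => (differentiable_avg β _).const_mul (c t)).const_mul _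

lemma jet_dFree (β : ℝ) : Jet (fun l => dFree (n := n) β l) := by
  refine ⟨fun l c c' τ hc => ?_, eb_dFree β⟩
  have hF := (differentiable_dFree β l (c τ)).hasFDerivAt
  refine (hF.comp_hasDerivAt τ (hasDerivAt_pi.2 hc)).congr_deriv ?_
  set L := fderiv ℝ (dFree β l) (c τ)
  have hL : ∀ v, L (Pi.single v 1) = dFree β (v :: l) (c τ) := fun v => by
    have h1 := hasDerivAt_dFree β v l (c τ) (c τ v)
    rw [Function.update_eq_self] at h1
    exact (hF.comp_hasDerivAt_of_eq (c τ v) (hasDerivAt_update (c τ) v (c τ v))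
      (Function.update_eq_self v (c τ)).symm).unique h1
  conv_lhs => rw [pi_eq_sum_univ' c']
  simp only [map_sum, map_smul, hL, smul_eq_mul, mul_comm]

lemma He_update (α : Idx n) (e : Edge n) (k : ℕ) (g : Edge n → ℝ) :
    He (Function.update α e k) g = he k (g e) * ∏ i ∈ Finset.univ.erase e, he (α i) (g i) := by
  rw [He, ← Finset.mul_prod_erase _ _ (Finset.mem_univ e), Function.update_self]
  congr 1
  exact Finset.prod_congr rfl fun i hi => by rw [Function.update_of_ne (Finset.ne_of_mem_erase hi)]

lemma mul_He (α : Idx n) (e : Edge n) (g : Edge n → ℝ) :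
    g e * He α g = He (α + Pi.single e 1) g + α e * He (Function.update α e (α e - 1)) g := by
  have h1 : α + Pi.single e 1 = Function.update α e (α e + 1) := funext fun i => by
    by_cases hi : i = e
    · subst hi; simp
    · simp [hi]
  rw [h1, He_update, He_update, ← mul_assoc, ← add_mul, ← mul_he, mul_assoc]
  congr 1
  conv_lhs => rw [← Function.update_eq_self e α]
  rw [He_update]

lemma hasDerivAt_He (α : Idx n) (e : Edge n) (g : Edge n → ℝ) (t : ℝ) :
    HasDerivAt (fun s => He α (Function.update g e s))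
      (α e * He (Function.update α e (α e - 1)) (Function.update g e t)) t := by
  have hs : ∀ (s : ℝ) (k : ℕ), He (Function.update α e k) (Function.update g e s)
      = he k s * ∏ i ∈ Finset.univ.erase e, he (α i) (g i) := fun s k => by
    rw [He_update, Function.update_self]
    congr 1
    exact Finset.prod_congr rfl fun i hi => by rw [Function.update_of_ne (Finset.ne_of_mem_erase hi)]
  have h2 : ∀ s : ℝ, He α (Function.update g e s)
      = he (α e) s * ∏ i ∈ Finset.univ.erase e, he (α i) (g i) := fun s => by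
    simpa only [Function.update_eq_self] using hs s (α e)
  simp only [h2, hs, ← mul_assoc]
  exact (hasDerivAt_he (α e) t).mul_const _

theorem integral_dFree_He (β : ℝ) (l : List (Edge n)) (α : Idx n) :
    ∫ g, dFree β l g * He α g ∂gauss (Edge n) = coef β (countIdx l + α) := by
  induction l generalizing α with
  | nil =>
    have : countIdx ([] : List (Edge n)) + α = α := funext fun e => by simp [countIdx]
    rw [this]; rfl
  | cons e l ih =>
    set A' := Function.update α e (α e - 1) with hA'
    have hb1 := (eb_dFree β (e :: l)).mul (eb_He α)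
    have hb2 : EB fun z => dFree β l z * ((α e : ℝ) * He A' z) :=
      (eb_dFree β l).mul ((EB.const _).mul (eb_He A'))
    have h := EB.ibp e ((eb_dFree β l).mul (eb_He α)) (hb1.add hb2) fun z t =>
      (hasDerivAt_dFree β e l z t).mul (hasDerivAt_He α e z t)
    rw [integral_add hb1.integrable hb2.integrable] at h
    have e1 : (fun z : Edge n → ℝ => z e * (dFree β l z * He α z)) = fun z =>
        dFree β l z * He (α + Pi.single e 1) z + dFree β l z * ((α e : ℝ) * He A' z) :=
      funext fun z => by
        have := mul_He α e z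
        linear_combination (dFree β l z) * this
    rw [e1, integral_add ((eb_dFree β l).mul (eb_He _)).integrable hb2.integrable] at h
    rw [show countIdx (e :: l) + α = countIdx l + (α + Pi.single e 1) from funext fun i => by
      by_cases hi : i = e
      · subst hi; simp [countIdx]; ring
      · simp [countIdx, hi, List.count_cons_of_ne (Ne.symm hi)]]
    rw [← ih]
    linarith

theorem prod_mul_He (D₀ : Finset (Edge n)) (R : Idx n) (g : Edge n → ℝ) :
    (∏ e ∈ D₀, g e) * He R g = ∑ D ∈ D₀.powerset,
      (∏ e ∈ D, (R e : ℝ)) *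
        He (fun e => R e + (if e ∈ D₀ \ D then 1 else 0) - (if e ∈ D then 1 else 0)) g := by
  rw [He, ← Finset.prod_mul_prod_compl D₀ (fun e => he (R e) (g e)), ← mul_assoc,
    ← Finset.prod_mul_distrib]
  simp only [mul_he]
  rw [Finset.prod_congr rfl fun e _ => add_comm (he (R e + 1) (g e)) _, Finset.prod_add, Finset.sum_mul]
  refine Finset.sum_congr rfl fun D hD => ?_
  rw [Finset.mem_powerset] at hD
  rw [He, ← Finset.prod_mul_prod_compl D₀ (fun e =>
    he (R e + (if e ∈ D₀ \ D then 1 else 0) - (if e ∈ D then 1 else 0)) (g e)),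
    ← Finset.prod_sdiff hD (f := fun e =>
      he (R e + (if e ∈ D₀ \ D then 1 else 0) - (if e ∈ D then 1 else 0)) (g e)),
    Finset.prod_mul_distrib]
  have a1 : ∀ e ∈ D, he (R e + (if e ∈ D₀ \ D then 1 else 0) - (if e ∈ D then 1 else 0)) (g e)
      = he (R e - 1) (g e) := fun e he' => by simp [he']
  have a2 : ∀ e ∈ D₀ \ D, he (R e + (if e ∈ D₀ \ D then 1 else 0) - (if e ∈ D then 1 else 0)) (g e)
      = he (R e + 1) (g e) := fun e he' => by
    rw [if_pos he', if_neg (Finset.mem_sdiff.1 he').2, Nat.sub_zero]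
  have a3 : ∀ e ∈ D₀ᶜ, he (R e + (if e ∈ D₀ \ D then 1 else 0) - (if e ∈ D then 1 else 0)) (g e)
      = he (R e) (g e) := fun e he' => by
    have h0 : e ∉ D₀ := Finset.mem_compl.1 he'
    have h1 : e ∉ D := fun h => h0 (hD h)
    simp [h0, h1]
  rw [Finset.prod_congr rfl a1, Finset.prod_congr rfl a2, Finset.prod_congr rfl a3]
  ring

/-! ## Variance by low chaos -/

lemma mem_idxLe {K : ℕ} {α : Idx n} : α ∈ idxLe n K ↔ deg α ≤ K := by
  simp only [idxLe, Finset.mem_filter, Fintype.mem_piFinset, Finset.mem_range]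
  exact ⟨fun h => h.2, fun h => ⟨fun e => Nat.lt_succ_of_le
    ((Finset.single_le_sum (f := α) (fun _ _ => Nat.zero_le _) (Finset.mem_univ e)).trans h), h⟩⟩

/-- the multi-indices of total degree exactly `k` -/
def level' (n k : ℕ) : Finset (Idx n) := (idxLe n k).filter fun α => deg α = k

lemma mem_level' {k : ℕ} {α : Idx n} : α ∈ level' n k ↔ deg α = k := by
  simp only [level', Finset.mem_filter, mem_idxLe]
  exact ⟨fun h => h.2, fun h => ⟨h.le, h⟩⟩

lemma deg_add_idx (α γ : Idx n) : deg (α + γ) = deg α + deg γ := Finset.sum_add_distrib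

lemma deg_single (e : Edge n) : deg (Pi.single e 1 : Idx n) = 1 := by simp [deg]

lemma fac_add_single (α : Idx n) (e : Edge n) :
    fac (α + Pi.single e 1) = (α e + 1 : ℕ) * fac α := by
  simp only [fac]
  rw [← Finset.mul_prod_erase _ _ (Finset.mem_univ e),
    ← Finset.mul_prod_erase _ (fun i => ((α i).factorial : ℝ)) (Finset.mem_univ e)]
  rw [Finset.prod_congr rfl fun i hi => show ((((α + Pi.single e 1 : Idx n)) i).factorial : ℝ) = (α i).factorial by
    simp [Finset.ne_of_mem_erase hi]]
  simp [Nat.factorial_succ]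
  ring

lemma sum_count (k : ℕ) (f : Idx n → ℝ) :
    ∑ l : Fin k → Edge n, f (countIdx (List.ofFn l)) = k.factorial * ∑ α ∈ level' n k, f α / fac α := by
  induction k generalizing f with
  | zero =>
    have h : level' n 0 = {0} := by
      ext α
      simp [mem_level', deg, funext_iff]
    rw [h]
    simp [fac]
    rfl
  | succ k ih =>
    rw [← (Fin.consEquiv fun _ => Edge n).sum_comp, Fintype.sum_prod_type]
    have hc : ∀ e (l : Fin k → Edge n), countIdx (List.ofFn (Fin.consEquiv (fun _ => Edge n) (e, l)))
        = countIdx (List.ofFn l) + Pi.single e 1 := fun e l => funext fun i => by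
      by_cases hi : i = e
      · subst hi; simp [countIdx, Fin.consEquiv, List.ofFn_succ]
      · simp [countIdx, Fin.consEquiv, List.ofFn_succ, hi, List.count_cons_of_ne (Ne.symm hi)]
    simp only [hc, fun e => ih fun α => f (α + Pi.single e 1)]
    have hs : ∀ e : Edge n, ∑ α ∈ level' n k, f (α + Pi.single e 1) / fac α
        = ∑ γ ∈ level' n (k + 1), (γ e : ℝ) * (f γ / fac γ) := fun e => by
      rw [← Finset.sum_filter_add_sum_filter_not (level' n (k + 1)) (fun γ => γ e ≠ 0),
        Finset.sum_eq_zero (s := (level' n (k + 1)).filter fun γ => ¬γ e ≠ 0) (fun γ hγ => by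
          simp [not_not.1 (Finset.mem_filter.1 hγ).2]), add_zero]
      refine Finset.sum_nbij' (fun α => α + Pi.single e 1) (fun γ => γ - Pi.single e 1)
        (fun α hα => ?_) (fun γ hγ => ?_) (fun α _ => ?_) (fun γ hγ => ?_) (fun α _ => ?_)
      · simp only [Finset.mem_filter, mem_level'] at hα ⊢
        exact ⟨by rw [deg_add_idx, deg_single, hα], by simp⟩
      · simp only [Finset.mem_filter, mem_level'] at hγ ⊢
        have hle : (γ - Pi.single e 1) + Pi.single e 1 = γ := funext fun i => by
          by_cases hi : i = e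
          · subst hi; simp; omega
          · simp [hi]
        have := congrArg deg hle
        rw [deg_add_idx, deg_single] at this
        omega
      · exact add_tsub_cancel_right α _
      · simp only [Finset.mem_filter] at hγ
        exact funext fun i => by
          by_cases hi : i = e
          · subst hi; simp; omega
          · simp [hi]
      · rw [fac_add_single]
        simp only [Pi.add_apply, Pi.single_eq_same]
        field_simp
    simp only [← Finset.mul_sum, hs]
    rw [Finset.sum_comm, Nat.factorial_succ, Finset.mul_sum, Finset.mul_sum]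
    refine Finset.sum_congr rfl fun γ hγ => ?_
    rw [← Finset.sum_mul, ← Nat.cast_sum, show ∑ e, γ e = k + 1 from mem_level'.1 hγ]
    push_cast; ring

lemma card_edge : 2 * Fintype.card (Edge n) ≤ n * n := by
  have h := Fintype.card_le_of_injective (Sum.elim (fun e : Edge n => e.1) (fun e : Edge n => e.1.swap)) ?_
  · simpa [two_mul] using h
  · rintro (a | a) (b | b) h <;> simp only [Sum.elim_inl, Sum.elim_inr] at h
    · exact congrArg Sum.inl (Subtype.ext h)
    · exfalso; have h1 := a.2; have h2 := b.2
      simp only [h, Prod.fst_swap, Prod.snd_swap] at h1; exact lt_asymm h1 h2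
    · exfalso; have h1 := a.2; have h2 := b.2
      simp only [← h, Prod.fst_swap, Prod.snd_swap] at h2; exact lt_asymm h1 h2
    · exact congrArg Sum.inr (Subtype.ext (Prod.swap_injective h))

lemma abs_mean_le (β : ℝ) (g : Edge n → ℝ) (e : Edge n) : |mean β g e| ≤ 1 := by
  refine (Finset.abs_sum_le_sum_abs _ _).trans (le_of_eq ?_)
  simp [abs_mul, abs_bond, abs_of_nonneg (gibbs_nonneg β g _), sum_gibbs]

lemma sum_grad_sq (β : ℝ) :
    ∑ e : Edge n, ∫ g, dFree β [e] g ^ 2 ∂gauss (Edge n) ≤ β ^ 2 * n / 2 := by
  have h1 : ∀ e : Edge n, ∫ g, dFree β [e] g ^ 2 ∂gauss (Edge n) ≤ β ^ 2 / n := fun e => by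
    refine (integral_mono_of_nonneg (Filter.Eventually.of_forall fun g => sq_nonneg _)
      (integrable_const (β ^ 2 / (n:ℝ))) (Filter.Eventually.of_forall fun g => ?_)).trans_eq (by simp)
    show deriv (fun t => free β (Function.update g e t)) (g e) ^ 2 ≤ _
    rw [(hasDerivAt_free β g e (g e)).deriv, Function.update_eq_self, mul_pow, div_pow,
      Real.sq_sqrt (Nat.cast_nonneg n)]
    exact mul_le_of_le_one_right (by positivity) (sq_le_one_iff_abs_le_one _ |>.2 (abs_mean_le β g e))
  refine (Finset.sum_le_sum fun e _ => h1 e).trans ?_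
  rw [Finset.sum_const, Finset.card_univ, nsmul_eq_mul]
  have hc : 2 * (Fintype.card (Edge n) : ℝ) ≤ n * n := by exact_mod_cast card_edge
  rcases Nat.eq_zero_or_pos n with rfl | hn
  · simp
  · have hn' : (0:ℝ) < n := by exact_mod_cast hn
    calc (Fintype.card (Edge n) : ℝ) * (β ^ 2 / n) ≤ (n * n / 2) * (β ^ 2 / n) :=
          mul_le_mul_of_nonneg_right (by linarith) (by positivity)
      _ = β ^ 2 * n / 2 := by field_simp

theorem variance_free_le (β : ℝ) (K : ℕ) :
    Var[free β; gauss (Edge n)] ≤
      ∑ α ∈ (idxLe n K).erase 0, coef β α ^ 2 / fac α + β ^ 2 * n / (2 * ((K : ℝ) + 1)) := by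
  refine (variance_le_chaos (jet_dFree (n := n) β) (Nat.le_add_left 1 K)).trans (add_le_add (le_of_eq ?_) ?_)
  · have hE : ∀ l : List (Edge n), ∫ x, dFree β l x ∂gauss (Edge n) = coef β (countIdx l) := fun l => by
      have := integral_dFree_He β l 0
      rw [add_zero] at this
      rw [← this]
      simp [He, he]
    simp only [hE, sum_count _ fun α => coef β α ^ 2]
    rw [← Finset.sum_fiberwise_of_maps_to (s := (idxLe n K).erase 0) (t := Finset.Ico 1 (K + 1))
      (g := deg) fun α hα => by
        rw [Finset.mem_erase, mem_idxLe] at hα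
        rw [Finset.mem_Ico]
        refine ⟨Nat.one_le_iff_ne_zero.2 fun h => hα.1 (funext fun e => ?_), Nat.lt_succ_of_le hα.2⟩
        exact (Finset.sum_eq_zero_iff.1 h) e (Finset.mem_univ e)]
    refine Finset.sum_congr rfl fun k hk => ?_
    rw [Finset.mem_Ico] at hk
    rw [mul_div_cancel_left₀ _ (by exact_mod_cast k.factorial_ne_zero)]
    refine Finset.sum_congr ?_ fun _ _ => rfl
    ext α
    simp only [mem_level', Finset.mem_filter, Finset.mem_erase, mem_idxLe]
    constructor
    · intro h
      refine ⟨⟨?_, by omega⟩, h⟩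
      rintro rfl
      simp [deg] at h
      omega
    · exact fun h => h.2
  · rw [← div_div, Nat.cast_add, Nat.cast_one]
    exact div_le_div_of_nonneg_right (sum_grad_sq β) (by positivity)

end Vale.Agent.P146
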