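import Vale.Agent.P146.GaussExp

/-!
Truncated chaos bound: if `D l` are the iterated partial derivatives of `F = D []`, all of
exponential growth, then
`Var F ≤ ∑_{1 ≤ k < K} ∑_l (E D l)² / k! + ∑_i E (D [i])² / K`.
-/

open MeasureTheory ProbabilityTheory Set Filter
open Vale.Agent.P150 (gauss dot)
open Vale.Agent.P157.Lim (Der cvec field dcov continuous_field)

namespace Vale.Agent.P146

set_option linter.unusedSectionVars false

variable {ι : Type*} [Fintype ι]

/-- all iterated derivatives of `D []`, each of exponential growth -/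
structure Jet (D : List ι → (ι → ℝ) → ℝ) : Prop where
  der : ∀ l, Der (D l) (fun i => D (i :: l))
  eb : ∀ l, EB (D l)

open Classical in
/-- the common part of the two copies -/
noncomputable def shareA : ι ⊕ ι → ι → ℝ :=
  fun v i => if Sum.elim id id v = i then 1 else 0

open Classical in
/-- the independent part of the two copies -/
noncomputable def shareB : ι ⊕ ι → ι ⊕ ι → ℝ :=
  fun v j => if v = j then 1 else 0

/-- product of functions of the two copies -/
def pairH (G H : (ι → ℝ) → ℝ) (z : ι ⊕ ι → ℝ) : ℝ :=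
  G (fun i => z (Sum.inl i)) * H (fun i => z (Sum.inr i))

/-- `E[G(g_t) H(g'_t)]` for two standard Gaussian vectors of correlation `t` -/
noncomputable def corr (G H : (ι → ℝ) → ℝ) (t : ℝ) : ℝ :=
  ∫ g, pairH G H (field shareA shareB t g) ∂gauss (ι ⊕ (ι ⊕ ι))

lemma der_left {G : (ι → ℝ) → ℝ} {G1 : ι → (ι → ℝ) → ℝ} (hG : Der G G1) :
    Der (fun z : ι ⊕ ι → ℝ => G (fun i => z (Sum.inl i)))
      (Sum.elim (fun i z => G1 i (fun j => z (Sum.inl j))) (fun _ _ => 0)) := fun c c' τ hc =>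
  (hG (fun x i => c x (Sum.inl i)) (fun i => c' (Sum.inl i)) τ fun i => hc _).congr_deriv
    (by simp [Fintype.sum_sum_type])

lemma der_right {G : (ι → ℝ) → ℝ} {G1 : ι → (ι → ℝ) → ℝ} (hG : Der G G1) :
    Der (fun z : ι ⊕ ι → ℝ => G (fun i => z (Sum.inr i)))
      (Sum.elim (fun _ _ => 0) (fun i z => G1 i (fun j => z (Sum.inr j)))) := fun c c' τ hc =>
  (hG (fun x i => c x (Sum.inr i)) (fun i => c' (Sum.inr i)) τ fun i => hc _).congr_deriv
    (by simp [Fintype.sum_sum_type])

lemma eb_comp {κ : Type*} [Fintype κ] (e : ι → κ) (he : Function.Injective e) {G : (ι → ℝ) → ℝ}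
    (hG : EB G) : EB (fun z : κ → ℝ => G (fun i => z (e i))) := by
  classical
  obtain ⟨hc, C, M, hM, hC⟩ := hG
  have hC0 : 0 ≤ C := nonneg_of_mul_nonneg_left ((abs_nonneg _).trans (hC 0)) (Real.exp_pos _)
  refine ⟨hc.comp (continuous_pi fun i => continuous_apply (e i)), C, M, hM, fun z =>
    (hC _).trans (mul_le_mul_of_nonneg_left (Real.exp_le_exp.2 (mul_le_mul_of_nonneg_left ?_ hM)) hC0)⟩
  unfold Vale.Agent.P150.l1
  exact (Finset.sum_image (f := fun k => |z k|) fun x _ y _ h => he h).symm.trans_le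
    (Finset.sum_le_sum_of_subset_of_nonneg (Finset.subset_univ _) fun _ _ _ => abs_nonneg _)

lemma eb_pairH {G H : (ι → ℝ) → ℝ} (hG : EB G) (hH : EB H) : EB (pairH G H) :=
  (eb_comp Sum.inl Sum.inl_injective hG).mul (eb_comp Sum.inr Sum.inr_injective hH)

open Classical in
lemma sum_ind {α : Type*} [Fintype α] (p : α) (f : α → ℝ) :
    ∑ k, (if p = k then (1:ℝ) else 0) * f k = f p := by
  rw [Finset.sum_eq_single p (fun k _ hk => by simp [Ne.symm hk]) (by simp)]
  simp

open Classical in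
lemma dcov_share (u v : ι ⊕ ι) :
    dcov shareA shareB u v = if u.swap = v then 1 else 0 := by
  simp only [dcov, dot, shareA, shareB, sum_ind]
  rcases u with i | i <;> rcases v with j | j <;> simp [eq_comm]

lemma corr_deriv {D : List ι → (ι → ℝ) → ℝ} (hD : Jet D) (l m : List ι) {t : ℝ} (h0 : 0 < t)
    (h1 : t < 1) :
    HasDerivAt (corr (D l) (D m)) (∑ i, corr (D (i :: l)) (D (i :: m)) t) t := by
  classical
  set L : List ι → (ι ⊕ ι → ℝ) → ℝ := fun l z => D l (fun i => z (Sum.inl i)) with hL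
  set R : List ι → (ι ⊕ ι → ℝ) → ℝ := fun l z => D l (fun i => z (Sum.inr i)) with hR
  set L1 : List ι → ι ⊕ ι → (ι ⊕ ι → ℝ) → ℝ := fun l =>
    Sum.elim (fun i => L (i :: l)) (fun _ _ => 0) with hL1
  set R1 : List ι → ι ⊕ ι → (ι ⊕ ι → ℝ) → ℝ := fun l =>
    Sum.elim (fun _ _ => 0) (fun i => R (i :: l)) with hR1
  have dL : ∀ l, Der (L l) (L1 l) := fun l => der_left (hD.der l)
  have dR : ∀ l, Der (R l) (R1 l) := fun l => der_right (hD.der l)
  have eL : ∀ l, EB (L l) := fun l => eb_comp Sum.inl Sum.inl_injective (hD.eb l)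
  have eR : ∀ l, EB (R l) := fun l => eb_comp Sum.inr Sum.inr_injective (hD.eb l)
  set H1 : ι ⊕ ι → (ι ⊕ ι → ℝ) → ℝ :=
    Sum.elim (fun i z => L (i :: l) z * R m z) (fun i z => L l z * R (i :: m) z) with hH1
  set H2 : ι ⊕ ι → ι ⊕ ι → (ι ⊕ ι → ℝ) → ℝ := Sum.elim
    (fun i u z => L1 (i :: l) u z * R m z + L (i :: l) z * R1 m u z)
    (fun i u z => L1 l u z * R (i :: m) z + L l z * R1 (i :: m) u z) with hH2
  have eL1 : ∀ l u, EB (L1 l u) := fun l u => by
    rcases u with i | i
    · exact eL _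
    · exact EB.const 0
  have eR1 : ∀ l u, EB (R1 l u) := fun l u => by
    rcases u with i | i
    · exact EB.const 0
    · exact eR _
  have key := interpE shareA shareB (H := pairH (D l) (D m)) (H1 := H1) (H2 := H2)
    ((eL l).mul (eR m))
    (((dL l).mul (dR m)).congr (fun v z => by rcases v with i | i <;> simp [hL1, hR1, hH1]))
    (fun v => by
      rcases v with i | i
      · exact (eL _).mul (eR _)
      · exact (eL _).mul (eR _))
    (fun v => by
      rcases v with i | i
      · exact (dL _).mul (dR _)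
      · exact (dL _).mul (dR _))
    (fun v u => by
      rcases v with i | i
      · exact ((eL1 _ _).mul (eR _)).add ((eL _).mul (eR1 _ _))
      · exact ((eL1 _ _).mul (eR _)).add ((eL _).mul (eR1 _ _)))
    h0 h1
  refine key.congr_deriv ?_
  simp only [dcov_share, Sum.swap_inl, Sum.swap_inr, ite_mul, one_mul, zero_mul,
    Fintype.sum_sum_type, Finset.sum_add_distrib]
  simp only [reduceCtorEq, if_false, Finset.sum_const_zero, add_zero, zero_add, Sum.inl.injEq,
    Sum.inr.injEq, Finset.sum_ite_eq', Finset.mem_univ, if_true,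
    hH2, hL1, hR1, Sum.elim_inl, Sum.elim_inr, zero_mul, mul_zero, add_zero, zero_add]
  rw [← two_mul, ← mul_assoc, one_div_mul_cancel two_ne_zero, one_mul]
  rfl

lemma continuousOn_corr {G H : (ι → ℝ) → ℝ} (hG : EB G) (hH : EB H) :
    ContinuousOn (corr G H) (Icc 0 1) :=
  continuousOn_EB shareA shareB (eb_pairH hG hH)

/-- Gaussian smoothing by the independent part -/
noncomputable def smooth (G : (ι → ℝ) → ℝ) (t : ℝ) (z : ι → ℝ) : ℝ :=
  ∫ x, G (fun i => √t * z i + √(1 - t) * x i) ∂gauss ι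

lemma field_share (t : ℝ) (g : ι ⊕ (ι ⊕ ι) → ℝ) (v : ι ⊕ ι) :
    field shareA shareB t g v =
      √t * g (Sum.inl (Sum.elim id id v)) + √(1 - t) * g (Sum.inr v) := by
  simp only [field, dot]
  rw [Fintype.sum_sum_type]
  simp only [cvec, shareA, shareB, Sum.elim_inl, Sum.elim_inr, mul_assoc, ← Finset.mul_sum, sum_ind]
  congr 2
  convert sum_ind v fun i => g (Sum.inr i)

lemma corr_eq {G H : (ι → ℝ) → ℝ} (hG : EB G) (hH : EB H) {t : ℝ} (ht : t ∈ Icc (0:ℝ) 1) :
    corr G H t = ∫ z, smooth G t z * smooth H t z ∂gauss ι := by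
  set e : ι ⊕ (ι ⊕ ι) → ℝ → ℝ := fun _ => id
  have m1 : MeasurePreserving (MeasurableEquiv.sumPiEquivProdPi (fun _ : ι ⊕ (ι ⊕ ι) => ℝ))
      (gauss (ι ⊕ (ι ⊕ ι))) ((gauss ι).prod (gauss (ι ⊕ ι))) :=
    measurePreserving_sumPiEquivProdPi _
  have m2 : MeasurePreserving (MeasurableEquiv.sumPiEquivProdPi (fun _ : ι ⊕ ι => ℝ))
      (gauss (ι ⊕ ι)) ((gauss ι).prod (gauss ι)) :=
    measurePreserving_sumPiEquivProdPi _
  have hi : Integrable (fun g => pairH G H (field shareA shareB t g)) (gauss (ι ⊕ (ι ⊕ ι))) :=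
    integrable_EB shareA shareB (eb_pairH hG hH) ht
  set P : (ι → ℝ) × (ι ⊕ ι → ℝ) → ℝ := fun p =>
    G (fun i => √t * p.1 i + √(1 - t) * p.2 (Sum.inl i)) *
      H (fun i => √t * p.1 i + √(1 - t) * p.2 (Sum.inr i)) with hP
  have eP : ∀ g, pairH G H (field shareA shareB t g) =
      P (MeasurableEquiv.sumPiEquivProdPi (fun _ : ι ⊕ (ι ⊕ ι) => ℝ) g) := fun g => by
    simp only [pairH, field_share, Sum.elim_inl, Sum.elim_inr, id_eq]
    rfl
  simp only [eP] at hi
  rw [corr]
  simp only [eP]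
  rw [m1.integral_comp' P]
  rw [integral_prod P ((m1.integrable_comp_emb
    (MeasurableEquiv.measurableEmbedding _)).1 hi)]
  refine integral_congr_ae (Eventually.of_forall fun z => ?_)
  show _ = smooth G t z * smooth H t z
  rw [smooth, smooth, ← integral_prod_mul (μ := gauss ι) (ν := gauss ι)]
  exact m2.integral_comp' (fun p => G (fun i => √t * z i + √(1 - t) * p.1 i) *
    H (fun i => √t * z i + √(1 - t) * p.2 i))

lemma corr_self_nonneg {G : (ι → ℝ) → ℝ} (hG : EB G) {t : ℝ} (ht : t ∈ Icc (0:ℝ) 1) :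
    0 ≤ corr G G t := by
  rw [corr_eq hG hG ht]
  exact integral_nonneg fun z => mul_self_nonneg _

lemma corr_zero {G H : (ι → ℝ) → ℝ} (hG : EB G) (hH : EB H) :
    corr G H 0 = (∫ x, G x ∂gauss ι) * ∫ x, H x ∂gauss ι := by
  rw [corr_eq hG hH (left_mem_Icc.2 zero_le_one)]
  simp [smooth]

lemma corr_one {G H : (ι → ℝ) → ℝ} (hG : EB G) (hH : EB H) :
    corr G H 1 = ∫ x, G x * H x ∂gauss ι := by
  rw [corr_eq hG hH (right_mem_Icc.2 zero_le_one)]
  simp [smooth]

/-- truncated Taylor bound for a sequence of derivatives with nonnegative high terms -/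
lemma taylor_tail (a : ℕ → ℝ → ℝ) (hc : ∀ k, ContinuousOn (a k) (Icc 0 1))
    (hd : ∀ k, ∀ t ∈ Ioo (0:ℝ) 1, HasDerivAt (a k) (a (k + 1) t) t)
    (hp : ∀ k, ∀ t ∈ Icc (0:ℝ) 1, 0 ≤ a (k + 1) t) {K : ℕ} (hK : 1 ≤ K) :
    a 0 1 - a 0 0 ≤ ∑ k ∈ Finset.Ico 1 K, a k 0 / k.factorial + a 1 1 / K := by
  obtain ⟨N, rfl⟩ : ∃ N, K = N + 1 := ⟨K - 1, by omega⟩
  set T : ℕ → ℝ → ℝ := fun j t =>
    a j t - ∑ i ∈ Finset.range (N + 1 - j), a (j + i) 0 * (t ^ i / i.factorial) with hT
  have hTd : ∀ j, ∀ t ∈ Ioo (0:ℝ) 1, j ≤ N → HasDerivAt (T j) (T (j + 1) t) t := by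
    intro j t ht hj
    have hr : N + 1 - j = (N - j) + 1 := by omega
    have hr' : N + 1 - (j + 1) = N - j := by omega
    simp only [hT, hr, hr', Finset.sum_range_succ']
    refine (hd j t ht).sub ?_
    have : ∀ i, HasDerivAt (fun x : ℝ => a (j + (i + 1)) 0 * (x ^ (i + 1) / (i + 1).factorial))
        (a (j + 1 + i) 0 * (t ^ i / i.factorial)) t := fun i => by
      refine (((hasDerivAt_pow (i + 1) t).div_const _).const_mul _).congr_deriv ?_
      rw [show j + (i + 1) = j + 1 + i by omega, Nat.factorial_succ]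
      push_cast
      field_simp
    exact ((HasDerivAt.fun_sum fun i _ => this i).fun_add
      (hasDerivAt_const t (a (j + 0) 0 * (t ^ 0 / (Nat.factorial 0 : ℝ))))).congr_deriv (add_zero _)
  have hTc : ∀ j, ContinuousOn (T j) (Icc 0 1) := fun j => (hc j).sub (by fun_prop)
  have hT0 : ∀ j, j ≤ N → T j 0 = 0 := fun j hj => by
    simp only [hT, show N + 1 - j = (N - j) + 1 by omega, Finset.sum_range_succ']
    simp
  have hTK : ∀ t, T (N + 1) t = a (N + 1) t := fun t => by simp [hT]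
  set g : ℕ → ℝ → ℝ := fun j t => t * T (j + 1) t - ((N + 1 - j : ℕ) : ℝ) * T j t with hg
  have hg0 : ∀ d j, j + d = N → ∀ t ∈ Icc (0:ℝ) 1, 0 ≤ g j t := by
    intro d
    induction d with
    | zero =>
      intro j hj t ht
      have hjN : j = N := by omega
      subst hjN
      have hmono : MonotoneOn (g j) (Icc 0 1) := by
        refine monotoneOn_of_hasDerivWithinAt_nonneg (convex_Icc 0 1)
          ((continuousOn_id.mul (hTc (j + 1))).sub (continuousOn_const.mul (hTc j)))
          (f' := fun s => s * a (j + 2) s) (fun s hs => ?_) (fun s hs => ?_)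
        · rw [interior_Icc] at hs
          have h2 : HasDerivAt (T (j + 1)) (a (j + 2) s) s := by
            rw [funext hTK]; exact hd (j + 1) s hs
          refine ((((hasDerivAt_id' s).mul h2).sub
            ((hTd j s hs le_rfl).const_mul (((j + 1 - j : ℕ) : ℝ)))).congr_deriv ?_).hasDerivWithinAt
          rw [show j + 1 - j = 1 by omega]
          push_cast; ring
        · rw [interior_Icc] at hs
          exact mul_nonneg hs.1.le (hp (j + 1) s (Ioo_subset_Icc_self hs))
      have h := hmono (left_mem_Icc.2 zero_le_one) ht ht.1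
      refine le_trans (le_of_eq ?_) h
      simp [hg, hT0 j le_rfl]
    | succ d ih =>
      intro j hj t ht
      have hmono : MonotoneOn (g j) (Icc 0 1) := by
        refine monotoneOn_of_hasDerivWithinAt_nonneg (convex_Icc 0 1)
          ((continuousOn_id.mul (hTc (j + 1))).sub (continuousOn_const.mul (hTc j)))
          (f' := fun s => g (j + 1) s) (fun s hs => ?_) (fun s hs => ?_)
        · rw [interior_Icc] at hs
          refine ((((hasDerivAt_id' s).mul (hTd (j + 1) s hs (by omega))).sub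
            ((hTd j s hs (by omega)).const_mul _)).congr_deriv ?_).hasDerivWithinAt
          simp only [hg]
          rw [show N + 1 - j = (N + 1 - (j + 1)) + 1 by omega]
          push_cast; ring
        · rw [interior_Icc] at hs
          exact ih (j + 1) (by omega) s (Ioo_subset_Icc_self hs)
      have h := hmono (left_mem_Icc.2 zero_le_one) ht ht.1
      refine le_trans (le_of_eq ?_) h
      simp [hg, hT0 j (by omega)]
  have h1 := hg0 N 0 (by omega) 1 (right_mem_Icc.2 zero_le_one)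
  simp only [hg, Nat.sub_zero, one_mul, zero_add] at h1
  have hT1 : T 1 1 ≤ a 1 1 := by
    simp only [hT, one_pow]
    refine sub_le_self _ (Finset.sum_nonneg fun i _ => mul_nonneg ?_ (by positivity))
    rw [Nat.add_comm]
    exact hp i 0 (left_mem_Icc.2 zero_le_one)
  have hN : (0:ℝ) < ((N + 1 : ℕ) : ℝ) := by positivity
  have h2 : T 0 1 ≤ a 1 1 / ((N + 1 : ℕ) : ℝ) := by
    rw [le_div_iff₀ hN, mul_comm]; linarith
  have h3 : T 0 1 = a 0 1 - a 0 0 - ∑ k ∈ Finset.Ico 1 (N + 1), a k 0 / k.factorial := by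
    have e := Finset.sum_range_add_sum_Ico (fun k => a k 0 / (k.factorial : ℝ))
      (show 1 ≤ N + 1 by omega)
    simp only [Finset.sum_range_one, Nat.factorial_zero, Nat.cast_one, div_one] at e
    simp only [hT, one_pow, zero_add, Nat.sub_zero, mul_one_div]
    linarith
  linarith

/-- the `k`-th derivative of `t ↦ corr F F t` -/
noncomputable def level (D : List ι → (ι → ℝ) → ℝ) (k : ℕ) (t : ℝ) : ℝ :=
  ∑ l : Fin k → ι, corr (D (List.ofFn l)) (D (List.ofFn l)) t

lemma level_deriv {D : List ι → (ι → ℝ) → ℝ} (hD : Jet D) (k : ℕ) {t : ℝ} (h0 : 0 < t)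
    (h1 : t < 1) : HasDerivAt (level D k) (level D (k + 1) t) t := by
  refine (HasDerivAt.fun_sum fun l _ => corr_deriv hD (List.ofFn l) (List.ofFn l) h0 h1).congr_deriv ?_
  rw [level, ← (Fin.consEquiv fun _ => ι).sum_comp, Fintype.sum_prod_type, Finset.sum_comm]
  simp [Fin.consEquiv, List.ofFn_succ]

/-- **Truncated chaos bound for the variance.** -/
theorem variance_le_chaos {D : List ι → (ι → ℝ) → ℝ} (hD : Jet D) {K : ℕ} (hK : 1 ≤ K) :
    ProbabilityTheory.variance (D []) (gauss ι) ≤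
      ∑ k ∈ Finset.Ico 1 K, (∑ l : Fin k → ι, (∫ x, D (List.ofFn l) x ∂gauss ι) ^ 2) / k.factorial
        + (∑ i, ∫ x, D [i] x ^ 2 ∂gauss ι) / K := by
  have hc : ∀ k, ContinuousOn (level D k) (Icc 0 1) := fun k =>
    continuousOn_finsetSum _ fun l _ => continuousOn_corr (hD.eb _) (hD.eb _)
  have h := taylor_tail (level D) hc (fun k t ht => level_deriv hD k ht.1 ht.2)
    (fun k t ht => Finset.sum_nonneg fun l _ => corr_self_nonneg (hD.eb _) ht) hK
  have hz : ∀ k, level D k 0 = ∑ l : Fin k → ι, (∫ x, D (List.ofFn l) x ∂gauss ι) ^ 2 := fun k => by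
    simp only [level, corr_zero (hD.eb _) (hD.eb _), sq]
  have h00 : level D 0 0 = (∫ x, D [] x ∂gauss ι) ^ 2 := by simp [hz]
  have h01 : level D 0 1 = ∫ x, D [] x ^ 2 ∂gauss ι := by
    simp [level, corr_one (hD.eb _) (hD.eb _), sq]
  have h11 : level D 1 1 = ∑ i, ∫ x, D [i] x ^ 2 ∂gauss ι := by
    simp only [level, corr_one (hD.eb _) (hD.eb _), ← sq]
    rw [← (Equiv.funUnique (Fin 1) ι).symm.sum_comp]
    simp
  obtain ⟨hcont, C, M, hM, hC⟩ := (hD.eb []).mul (hD.eb [])
  have hmem : MemLp (D []) 2 (gauss ι) := by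
    rw [memLp_two_iff_integrable_sq (hD.eb []).1.aestronglyMeasurable]
    simpa only [sq] using Vale.Agent.P150.integrable_of_bound hcont hC
  rw [variance_eq_sub hmem]
  simp only [Pi.pow_apply]
  simp only [h00, h01, h11, hz] at h
  exact h

end Vale.Agent.P146
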