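import Vale.Agent.P146.DecompLemmas

/-! Following chains of degree-two vertices between the pins. -/

noncomputable section

namespace Vale.Agent.P146

namespace Piece

variable {V W : Type*}

/-- add a free vertex in front -/
abbrev push (P : Piece V) (b : Bool) : Piece V where
  m := P.m + 1
  k := P.k
  link := Fin.cons b P.link
  ext x := ((P.ext x).1, Sum.map Fin.succ id (P.ext x).2)

/-- add an edge with a pinned end -/
abbrev addExt (P : Piece V) (e : V × (Fin P.m ⊕ V)) : Piece V where
  m := P.m
  k := P.k + 1
  link := P.link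
  ext := Fin.cons e P.ext

variable {n : ℕ}

lemma idx_eq (P : Piece (Fin n)) (φ : Fin P.m → Fin n) :
    P.idx φ = (∑ x, pairIdx (P.ext x).1 (Sum.elim φ id (P.ext x).2)) +
      ∑ j, if P.link j = true then pairIdx (φ j) (φ (P.next j)) else 0 := by
  rw [idx, inner, Finset.sum_filter]

lemma next_succ (P : Piece V) (b : Bool) (j : Fin P.m) :
    (P.push b).next j.succ = (P.next j).succ := by
  unfold next push
  by_cases h : (j : ℕ) + 1 < P.m <;> simp [h, Fin.ext_iff]

lemma idx_addExt (P : Piece (Fin n)) (e : Fin n × (Fin P.m ⊕ Fin n)) (φ : Fin P.m → Fin n) :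
    (P.addExt e).idx φ = pairIdx e.1 (Sum.elim φ id e.2) + P.idx φ := by
  rw [idx_eq, idx_eq, ← add_assoc]
  congr 1
  show ∑ x : Fin (P.k + 1), _ = _
  rw [Fin.sum_univ_succ]
  rfl

lemma idx_push (P : Piece (Fin n)) (b : Bool) (a : Fin n) (φ : Fin P.m → Fin n) :
    (P.push b).idx (Fin.cons a φ) =
      (if b = true then pairIdx a
        ((Fin.cons a φ : Fin (P.m + 1) → Fin n) ((P.push b).next (0 : Fin (P.m + 1)))) else 0)
        + P.idx φ := by
  rw [idx_eq, idx_eq]
  have h1 : ∀ x, Sum.elim (Fin.cons a φ : Fin (P.m + 1) → Fin n) id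
      (Sum.map Fin.succ id (P.ext x).2) = Sum.elim φ id (P.ext x).2 := fun x => by
    rcases (P.ext x).2 with j | v <;> simp
  have h2 : (∑ j : Fin (P.m + 1), if (P.push b).link j = true then
      pairIdx ((Fin.cons a φ : Fin (P.m + 1) → Fin n) j)
        ((Fin.cons a φ : Fin (P.m + 1) → Fin n) ((P.push b).next j)) else 0) =
      (if b = true then pairIdx a
        ((Fin.cons a φ : Fin (P.m + 1) → Fin n) ((P.push b).next (0 : Fin (P.m + 1)))) else 0) +
        ∑ j, if P.link j = true then pairIdx (φ j) (φ (P.next j)) else 0 := by
    rw [Fin.sum_univ_succ]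
    refine congrArg₂ _ (by simp [push]) (Finset.sum_congr rfl fun j _ => ?_)
    rw [next_succ]
    simp [push]
  show (∑ x, pairIdx (P.ext x).1 _) + _ = _
  erw [h2]
  simp only [push, h1]
  abel

end Piece

variable {n : ℕ}

/-- Partial decomposition of the remaining multigraph `γ`; `o` is the free end of the chain in
progress, which is placed at position `0`. -/
structure Dec (B : Finset (Fin n)) (γ : Idx n) (o : Option (Fin n)) where
  P : Piece (Fin n)
  φ : Fin P.m → Fin n
  R : Idx n
  link_lt : ∀ j, P.link j = true → (j : ℕ) + 1 < P.m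
  fst_mem : ∀ x, (P.ext x).1 ∈ B
  snd_mem : ∀ x v, (P.ext x).2 = Sum.inr v → v ∈ B ∧ (P.ext x).1 ≠ v
  inj : Function.Injective φ
  off : ∀ j, φ j ∉ B
  eq : γ = P.idx φ + R
  free_zero : ∀ j, vdeg R (φ j) = 0
  pin_zero : ∀ b ∈ B, vdeg R b = 0
  live : ∀ j, vdeg γ (φ j) ≠ 0
  head : ∀ x, o = some x → ∃ h : 0 < P.m, φ ⟨0, h⟩ = x

lemma exists_dec (B : Finset (Fin n)) : ∀ (d : ℕ) (γ : Idx n) (o : Option (Fin n)), deg γ = d →
    (∀ v, v ∉ B → o ≠ some v → vdeg γ v = 0 ∨ vdeg γ v = 2) →
    (∀ x, o = some x → x ∉ B ∧ vdeg γ x = 1) → Nonempty (Dec B γ o) := by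
  intro d
  induction d using Nat.strong_induction_on with
  | _ d ih =>
  intro γ o hd hfree ho
  cases o with
  | none =>
    by_cases hB : ∀ b ∈ B, vdeg γ b = 0
    · exact ⟨{
        P := ⟨0, 0, Fin.elim0, Fin.elim0⟩
        φ := Fin.elim0
        R := γ
        link_lt := fun j => j.elim0
        fst_mem := fun x => x.elim0
        snd_mem := fun x => x.elim0
        inj := fun j => j.elim0
        off := fun j => j.elim0
        eq := by simp [Piece.idx, Piece.inner]
        free_zero := fun j => j.elim0
        pin_zero := hB
        live := fun j => j.elim0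
        head := fun x hx => by simp at hx }⟩
    · push Not at hB
      obtain ⟨b, hb, hb0⟩ := hB
      obtain ⟨y, γ', hby, hγ, hdeg⟩ := exists_step hb0
      by_cases hy : y ∈ B
      · obtain ⟨D⟩ := ih (deg γ') (by omega) γ' none rfl (fun v hv _ => by
          have h0 : vdeg (pairIdx b y) v = 0 :=
            vdeg_pairIdx_eq_zero (fun h => hv (h ▸ hb)) fun h => hv (h ▸ hy)
          simpa [hγ, vdeg_add, h0] using hfree v hv (by simp)) (by simp)
        exact ⟨{
          P := D.P.addExt (b, Sum.inr y)
          φ := D.φ
          R := D.R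
          link_lt := D.link_lt
          fst_mem := Fin.cases hb D.fst_mem
          snd_mem := Fin.cases (fun v hv => by
            simp only [Piece.addExt, Fin.cons_zero, Sum.inr.injEq] at hv
            subst hv; exact ⟨hy, hby⟩) D.snd_mem
          inj := D.inj
          off := D.off
          eq := by rw [hγ, Piece.idx_addExt, add_assoc, ← D.eq]; simp
          free_zero := D.free_zero
          pin_zero := D.pin_zero
          live := fun j => by rw [hγ, vdeg_add]; have := D.live j; omega
          head := fun x hx => by simp at hx }⟩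
      · have hy1 : vdeg γ' y = 1 := by
          have := hfree y hy (by simp)
          rw [hγ, vdeg_add, vdeg_pairIdx hby] at this
          simp at this; omega
        obtain ⟨D⟩ := ih (deg γ') (by omega) γ' (some y) rfl (fun v hv hne => by
          have h0 : vdeg (pairIdx b y) v = 0 :=
            vdeg_pairIdx_eq_zero (fun h => hv (h ▸ hb)) fun h => hne (h ▸ rfl)
          simpa [hγ, vdeg_add, h0] using hfree v hv (by simp))
          (fun x hx => by cases hx; exact ⟨hy, hy1⟩)
        obtain ⟨hm, hhead⟩ := D.head y rfl
        exact ⟨{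
          P := D.P.addExt (b, Sum.inl ⟨0, hm⟩)
          φ := D.φ
          R := D.R
          link_lt := D.link_lt
          fst_mem := Fin.cases hb D.fst_mem
          snd_mem := Fin.cases (fun v hv => by simp [Piece.addExt] at hv) D.snd_mem
          inj := D.inj
          off := D.off
          eq := by rw [hγ, Piece.idx_addExt, add_assoc, ← D.eq]; simp [hhead]
          free_zero := D.free_zero
          pin_zero := D.pin_zero
          live := fun j => by rw [hγ, vdeg_add]; have := D.live j; omega
          head := fun x hx => by simp at hx }⟩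
  | some a =>
    obtain ⟨haB, ha1⟩ := ho a rfl
    obtain ⟨y, γ', hay, hγ, hdeg⟩ := exists_step (show vdeg γ a ≠ 0 by omega)
    have ha0 : vdeg γ' a = 0 := by
      rw [hγ, vdeg_add, vdeg_pairIdx hay] at ha1
      simp at ha1; omega
    have hne : ∀ {o : Option (Fin n)} (D : Dec B γ' o) (j : Fin D.P.m), D.φ j ≠ a :=
      fun D j h => D.live j (h ▸ ha0)
    have hR : ∀ {o : Option (Fin n)} (D : Dec B γ' o), vdeg D.R a = 0 := fun D => by
      have := congrArg (fun δ => vdeg δ a) D.eq
      simp only [vdeg_add, ha0] at this
      omega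
    by_cases hy : y ∈ B
    · obtain ⟨D⟩ := ih (deg γ') (by omega) γ' none rfl (fun v hv _ => by
        by_cases hva : v = a
        · subst hva; exact Or.inl ha0
        · have h0 : vdeg (pairIdx a y) v = 0 := vdeg_pairIdx_eq_zero hva fun h => hv (h ▸ hy)
          simpa [hγ, vdeg_add, h0] using hfree v hv (by simp [Ne.symm hva])) (by simp)
      exact ⟨{
        P := (D.P.push false).addExt (y, Sum.inl (0 : Fin (D.P.m + 1)))
        φ := (Fin.cons a D.φ : Fin (D.P.m + 1) → Fin n)
        R := D.R
        link_lt := Fin.cases (fun h => by simp [Piece.addExt, Piece.push] at h)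
          (fun j h => by
            have := D.link_lt j (by simpa [Piece.addExt, Piece.push] using h)
            show (j : ℕ) + 1 + 1 < D.P.m + 1
            omega)
        fst_mem := Fin.cases hy D.fst_mem
        snd_mem := Fin.cases (fun v hv => by simp [Piece.addExt] at hv) (fun x v hv => by
          simp only [Piece.addExt, Piece.push, Fin.cons_succ] at hv ⊢
          rcases h : (D.P.ext x).2 with i | w
          · simp [h] at hv
          · simp only [h, Sum.map_inr, id_eq, Sum.inr.injEq] at hv
            subst hv
            exact D.snd_mem x _ h)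
        inj := Fin.cons_injective_iff.2 ⟨fun ⟨j, hj⟩ => hne D j hj, D.inj⟩
        off := Fin.cases haB D.off
        eq := by
          rw [hγ, Piece.idx_addExt, Piece.idx_push]
          simp only [add_assoc]
          simp [← D.eq, pairIdx_comm a y]
        free_zero := Fin.cases (hR D) D.free_zero
        pin_zero := D.pin_zero
        live := Fin.cases (by simpa using show vdeg γ a ≠ 0 by omega)
          (fun j => by
            show vdeg γ (D.φ j) ≠ 0
            rw [hγ, vdeg_add]; have := D.live j; omega)
        head := fun x hx => ⟨Nat.succ_pos _, by cases hx; rfl⟩ }⟩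
    · have hy1 : vdeg γ' y = 1 := by
        have := hfree y hy (by simp [hay])
        rw [hγ, vdeg_add, vdeg_pairIdx hay] at this
        simp at this; omega
      obtain ⟨D⟩ := ih (deg γ') (by omega) γ' (some y) rfl (fun v hv hvy => by
        by_cases hva : v = a
        · subst hva; exact Or.inl ha0
        · have h0 : vdeg (pairIdx a y) v = 0 := vdeg_pairIdx_eq_zero hva fun h => hvy (h ▸ rfl)
          simpa [hγ, vdeg_add, h0] using hfree v hv (by simp [Ne.symm hva]))
        (fun x hx => by cases hx; exact ⟨hy, hy1⟩)
      obtain ⟨hm, hhead⟩ := D.head y rfl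
      have hnext : (Fin.cons a D.φ : Fin (D.P.m + 1) → Fin n)
          ((D.P.push true).next (0 : Fin (D.P.m + 1))) = y := by
        have : (D.P.push true).next (0 : Fin (D.P.m + 1)) = Fin.succ ⟨0, hm⟩ := by
          simp [Piece.next, Piece.push, hm, Fin.ext_iff]
        rw [this, Fin.cons_succ, hhead]
      exact ⟨{
        P := D.P.push true
        φ := (Fin.cons a D.φ : Fin (D.P.m + 1) → Fin n)
        R := D.R
        link_lt := Fin.cases (fun _ => show 0 + 1 < D.P.m + 1 by omega)
          (fun j h => by
            have := D.link_lt j (by simpa [Piece.push] using h)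
            show (j : ℕ) + 1 + 1 < D.P.m + 1
            omega)
        fst_mem := D.fst_mem
        snd_mem := fun x v hv => by
          simp only [Piece.push] at hv ⊢
          rcases h : (D.P.ext x).2 with i | w
          · simp [h] at hv
          · simp only [h, Sum.map_inr, id_eq, Sum.inr.injEq] at hv
            subst hv
            exact D.snd_mem x _ h
        inj := Fin.cons_injective_iff.2 ⟨fun ⟨j, hj⟩ => hne D j hj, D.inj⟩
        off := Fin.cases haB D.off
        eq := by
          rw [hγ, Piece.idx_push, hnext, add_assoc, ← D.eq]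
          simp
        free_zero := Fin.cases (hR D) D.free_zero
        pin_zero := D.pin_zero
        live := Fin.cases (by simpa using show vdeg γ a ≠ 0 by omega)
          (fun j => by
            show vdeg γ (D.φ j) ≠ 0
            rw [hγ, vdeg_add]; have := D.live j; omega)
        head := fun x hx => ⟨Nat.succ_pos _, by cases hx; rfl⟩ }⟩

end Vale.Agent.P146
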