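import Vale.Agent.P146.Defs

/-! Degrees of multigraphs and of placed pieces. -/

noncomputable section

namespace Vale.Agent.P146

variable {n : ℕ}

lemma pairIdx_comm (a b : Fin n) : pairIdx a b = pairIdx b a := by
  funext e; simp only [pairIdx, or_comm]

lemma pairIdx_self (a : Fin n) : pairIdx a a = 0 := by
  funext e
  have h : e.1 ≠ (a, a) := fun h => lt_irrefl a (by simpa [h] using e.2)
  simp [pairIdx, h]

lemma pairIdx_edge (e : Edge n) : pairIdx e.1.1 e.1.2 = fun f => if f = e then 1 else 0 := by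
  funext f
  have h : f.1 ≠ (e.1.2, e.1.1) := fun h =>
    lt_asymm e.2 (by simpa [h] using f.2)
  simp [pairIdx, h, Subtype.ext_iff]

lemma exists_edge {a b : Fin n} (h : a ≠ b) :
    ∃ e : Edge n, pairIdx a b = (fun f => if f = e then 1 else 0) ∧
      ((e.1.1 = a ∧ e.1.2 = b) ∨ (e.1.1 = b ∧ e.1.2 = a)) := by
  rcases lt_or_gt_of_ne h with h | h
  · exact ⟨⟨(a, b), h⟩, pairIdx_edge ⟨(a, b), h⟩, Or.inl ⟨rfl, rfl⟩⟩
  · exact ⟨⟨(b, a), h⟩, by rw [pairIdx_comm]; exact pairIdx_edge ⟨(b, a), h⟩, Or.inr ⟨rfl, rfl⟩⟩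

lemma deg_add (α β : Idx n) : deg (α + β) = deg α + deg β := by
  simp [deg, Finset.sum_add_distrib]

lemma deg_sum {ι : Type*} (s : Finset ι) (f : ι → Idx n) : deg (∑ i ∈ s, f i) = ∑ i ∈ s, deg (f i) := by
  simp only [deg, Finset.sum_apply]; exact Finset.sum_comm

lemma vdeg_add (α β : Idx n) (v : Fin n) : vdeg (α + β) v = vdeg α v + vdeg β v := by
  simp only [vdeg, Pi.add_apply, ← Finset.sum_add_distrib]
  exact Finset.sum_congr rfl fun e _ => by split <;> simp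

lemma vdeg_sum {ι : Type*} (s : Finset ι) (f : ι → Idx n) (v : Fin n) :
    vdeg (∑ i ∈ s, f i) v = ∑ i ∈ s, vdeg (f i) v := by
  simp only [vdeg, Finset.sum_apply]
  rw [Finset.sum_comm]
  exact Finset.sum_congr rfl fun e _ => by split <;> simp

lemma deg_pairIdx {a b : Fin n} (h : a ≠ b) : deg (pairIdx a b) = 1 := by
  obtain ⟨e, he, -⟩ := exists_edge h
  simp [deg, he]

lemma vdeg_pairIdx {a b : Fin n} (h : a ≠ b) (v : Fin n) :
    vdeg (pairIdx a b) v = if v = a ∨ v = b then 1 else 0 := by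
  obtain ⟨e, he, ha⟩ := exists_edge h
  simp only [vdeg, he]
  rw [Finset.sum_eq_single e (fun f _ hf => by simp [hf]) (by simp)]
  rcases ha with ⟨h1, h2⟩ | ⟨h1, h2⟩ <;> simp [h1, h2, eq_comm, or_comm]

lemma vdeg_pairIdx_eq_zero {a b v : Fin n} (ha : v ≠ a) (hb : v ≠ b) : vdeg (pairIdx a b) v = 0 := by
  by_cases h : a = b
  · subst h; simp [pairIdx_self, vdeg]
  · simp [vdeg_pairIdx h, ha, hb]

lemma sum_vdeg (α : Idx n) : ∑ v, vdeg α v = 2 * deg α := by
  simp only [vdeg, deg, Finset.mul_sum]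
  rw [Finset.sum_comm]
  refine Finset.sum_congr rfl fun e _ => ?_
  rw [← Finset.sum_filter, Finset.sum_const, smul_eq_mul]
  congr 1
  have : (Finset.univ.filter fun v => e.1.1 = v ∨ e.1.2 = v) = {e.1.1, e.1.2} := by
    ext v; simp [eq_comm]
  rw [this, Finset.card_pair e.2.ne]

/-- split off one edge at a vertex of nonzero degree -/
lemma exists_step {γ : Idx n} {x : Fin n} (h : vdeg γ x ≠ 0) :
    ∃ y γ', x ≠ y ∧ γ = pairIdx x y + γ' ∧ deg γ = deg γ' + 1 := by
  obtain ⟨e, -, he⟩ := Finset.exists_ne_zero_of_sum_ne_zero h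
  obtain ⟨hx, hγ⟩ : (e.1.1 = x ∨ e.1.2 = x) ∧ γ e ≠ 0 := by
    by_cases hx : e.1.1 = x ∨ e.1.2 = x
    · exact ⟨hx, by simpa [hx] using he⟩
    · simp [hx] at he
  have key : ∀ y, x ≠ y → pairIdx x y = (fun f => if f = e then 1 else 0) →
      ∃ γ', γ = pairIdx x y + γ' ∧ deg γ = deg γ' + 1 := by
    intro y hy hp
    have hg : γ = pairIdx x y + fun f => γ f - (if f = e then 1 else 0) := by
      funext f
      simp only [hp, Pi.add_apply]
      split_ifs with hf
      · subst hf; omega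
      · simp
    refine ⟨_, hg, ?_⟩
    conv_lhs => rw [hg]
    rw [deg_add, deg_pairIdx hy, add_comm]
  rcases hx with hx | hx <;> subst hx
  · exact ⟨e.1.2, (key _ e.2.ne (pairIdx_edge e)).imp fun γ' h => ⟨e.2.ne, h⟩⟩
  · exact ⟨e.1.1, (key _ e.2.ne' (by rw [pairIdx_comm, pairIdx_edge e])).imp fun γ' h => ⟨e.2.ne', h⟩⟩

namespace Piece

lemma mem_inner {V : Type*} (P : Piece V) (j : Fin P.m) : j ∈ P.inner ↔ P.link j = true := by
  simp [inner]

lemma next_ne {V : Type*} (P : Piece V) {j : Fin P.m} (h : (j : ℕ) + 1 < P.m) : P.next j ≠ j := by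
  simp [next, h, Fin.ext_iff]

variable {P : Piece (Fin n)} {φ : Fin P.m → Fin n}

lemma Good.ext_ne (hφ : P.Good φ) (hl : ∀ x v, (P.ext x).2 = Sum.inr v → (P.ext x).1 ≠ v)
    (x : Fin P.k) : (P.ext x).1 ≠ Sum.elim φ id (P.ext x).2 := by
  rcases h : (P.ext x).2 with j | v
  · exact (hφ.off_fst j x).symm
  · exact hl x v h

lemma Good.link_ne (hφ : P.Good φ) (hlt : ∀ j, P.link j = true → (j : ℕ) + 1 < P.m)
    {j : Fin P.m} (hj : j ∈ P.inner) : φ j ≠ φ (P.next j) := fun h =>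
  P.next_ne (hlt j ((P.mem_inner j).1 hj)) (hφ.inj h).symm

/-- the placed piece has `size` edges -/
lemma deg_idx (hφ : P.Good φ) (hlt : ∀ j, P.link j = true → (j : ℕ) + 1 < P.m)
    (hl : ∀ x v, (P.ext x).2 = Sum.inr v → (P.ext x).1 ≠ v) : deg (P.idx φ) = P.size := by
  rw [idx, deg_add, deg_sum, deg_sum,
    Finset.sum_congr rfl fun x _ => deg_pairIdx (hφ.ext_ne hl x),
    Finset.sum_congr rfl fun j hj => deg_pairIdx (hφ.link_ne hlt hj)]
  simp [size]

/-- degrees of free vertices in the placed piece -/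
lemma vdeg_idx_free (hφ : P.Good φ) (hlt : ∀ j, P.link j = true → (j : ℕ) + 1 < P.m)
    (hl : ∀ x v, (P.ext x).2 = Sum.inr v → (P.ext x).1 ≠ v) (j : Fin P.m) :
    vdeg (P.idx φ) (φ j) = P.fdeg j := by
  have h1 : ∀ x, vdeg (pairIdx (P.ext x).1 (Sum.elim φ id (P.ext x).2)) (φ j) =
      if (P.ext x).2.getLeft? = some j then 1 else 0 := by
    intro x
    rw [vdeg_pairIdx (hφ.ext_ne hl x)]
    have := hφ.off_fst j x
    rcases h : (P.ext x).2 with i | v
    · simp [this, hφ.inj.eq_iff, eq_comm]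
    · simp [this, hφ.off_snd j x v h]
  have h2 : ∀ i ∈ P.inner, vdeg (pairIdx (φ i) (φ (P.next i))) (φ j) =
      (if i = j then 1 else 0) + (if P.next i = j then 1 else 0) := by
    intro i hi
    rw [vdeg_pairIdx (hφ.link_ne hlt hi)]
    have := P.next_ne (hlt i ((P.mem_inner i).1 hi))
    simp only [hφ.inj.eq_iff]
    by_cases a : i = j
    · subst a; simp [this]
    · simp [a, Ne.symm a, eq_comm]
  rw [idx, vdeg_add, vdeg_sum, vdeg_sum, Finset.sum_congr rfl fun x _ => h1 x,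
    Finset.sum_congr rfl h2, Finset.sum_add_distrib, fdeg]
  simp only [Finset.card_filter]
  omega

/-- a placed piece lives on the free vertices and the pins -/
lemma vdeg_idx_eq_zero {v : Fin n} (hv : ∀ j, φ j ≠ v) (h1 : ∀ x, (P.ext x).1 ≠ v)
    (h2 : ∀ x w, (P.ext x).2 = Sum.inr w → w ≠ v) : vdeg (P.idx φ) v = 0 := by
  rw [idx, vdeg_add, vdeg_sum, vdeg_sum]
  refine Nat.add_eq_zero_iff.2 ⟨Finset.sum_eq_zero fun x _ => vdeg_pairIdx_eq_zero (h1 x).symm ?_,
    Finset.sum_eq_zero fun j _ => vdeg_pairIdx_eq_zero (hv _).symm (hv _).symm⟩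
  rcases h : (P.ext x).2 with j | w
  · exact (hv j).symm
  · exact (h2 x w h).symm

end Piece

end Vale.Agent.P146
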