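import Mathlib
import Vale.Agent.P150.GaussCalc

/-!
# P146: definitions for the polynomial variance bound of the SK free energy

Hermite coefficients of `F_n`, derivatives of `F_n`, and pieces: unions of chains of degree-two
vertices with fixed end points, on which the whole argument runs.
-/

open MeasureTheory
open Vale.Agent.P150 (gauss)

noncomputable section

namespace Vale.Agent.P146

/-- configurations in `{-1,1}^n` (`true ↦ 1`, `false ↦ -1`) -/
abbrev Cfg (n : ℕ) := Fin n → Bool

/-- unordered pairs, as pairs `i < j` -/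
abbrev Edge (n : ℕ) := {p : Fin n × Fin n // p.1 < p.2}

/-- `true ↦ 1`, `false ↦ -1` -/
def spin (b : Bool) : ℝ := if b then 1 else -1

variable {n : ℕ}

/-- `σ_i σ_j` for the edge `e = (i,j)` -/
def bond (x : Cfg n) (e : Edge n) : ℝ := spin (x e.1.1) * spin (x e.1.2)

/-- `H_n(σ) = n^{-1/2} ∑_{i<j} g_{ij} σ_i σ_j` -/
def energy (g : Edge n → ℝ) (x : Cfg n) : ℝ := (1 / Real.sqrt n) * ∑ e, g e * bond x e

/-- `Z_n(β)` -/
def partition (β : ℝ) (g : Edge n → ℝ) : ℝ := ∑ x : Cfg n, Real.exp (β * energy g x)

/-- `F_n(β) = log Z_n(β)` -/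
def free (β : ℝ) (g : Edge n → ℝ) : ℝ := Real.log (partition β g)

/-- the Gibbs measure -/
def gibbs (β : ℝ) (g : Edge n → ℝ) (x : Cfg n) : ℝ := Real.exp (β * energy g x) / partition β g

/-- average over `k` independent replicas -/
def avg (β : ℝ) (g : Edge n → ℝ) {k : ℕ} (f : (Fin k → Cfg n) → ℝ) : ℝ :=
  ∑ x : Fin k → Cfg n, (∏ a, gibbs β g (x a)) * f x

/-- iterated partial derivatives of the free energy, outermost first -/
def dFree (β : ℝ) : List (Edge n) → (Edge n → ℝ) → ℝ
  | [], g => free β g
  | e :: l, g => deriv (fun t => dFree β l (Function.update g e t)) (g e)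

/-- probabilists' Hermite polynomials -/
def he : ℕ → ℝ → ℝ
  | 0, _ => 1
  | 1, x => x
  | (k + 2), x => x * he (k + 1) x - ((k : ℝ) + 1) * he k x

/-- multi-indices on the couplings -/
abbrev Idx (n : ℕ) := Edge n → ℕ

/-- total degree -/
def deg (α : Idx n) : ℕ := ∑ e, α e

/-- `α!` -/
def fac (α : Idx n) : ℝ := ∏ e, ((α e).factorial : ℝ)

/-- multivariate Hermite polynomial -/
def He (α : Idx n) (g : Edge n → ℝ) : ℝ := ∏ e, he (α e) (g e)

/-- Hermite coefficient `E[F_n He_α]` of the free energy -/
def coef (β : ℝ) (α : Idx n) : ℝ := ∫ g, free β g * He α g ∂gauss (Edge n)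

/-- all multi-indices of total degree at most `K` -/
def idxLe (n K : ℕ) : Finset (Idx n) :=
  (Fintype.piFinset fun _ : Edge n => Finset.range (K + 1)).filter fun α => deg α ≤ K

/-- multiplicities of a list of edges -/
def countIdx (l : List (Edge n)) : Idx n := fun e => l.count e

/-- the multi-index of the single pair `{a,b}` (zero if `a = b`) -/
def pairIdx (a b : Fin n) : Idx n := fun e => if e.1 = (a, b) ∨ e.1 = (b, a) then 1 else 0

/-- degree of the vertex `v` in the multigraph `α` -/
def vdeg (α : Idx n) (v : Fin n) : ℕ := ∑ e, if e.1.1 = v ∨ e.1.2 = v then α e else 0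

/-- the vertices of the multigraph `α` -/
def supp (α : Idx n) : Finset (Fin n) := Finset.univ.filter fun v => vdeg α v ≠ 0

/-- relabel the vertices of a multigraph -/
def relabel (σ : Equiv.Perm (Fin n)) (α : Idx n) : Idx n :=
  ∑ e, α e • pairIdx (σ e.1.1) (σ e.1.2)

/-- the coupling between two vertices, zero on the diagonal -/
def cpl (g : Edge n → ℝ) (a b : Fin n) : ℝ :=
  if h : a < b then g ⟨(a, b), h⟩ else if h' : b < a then g ⟨(b, a), h'⟩ else 0

/-- A piece: `m` free vertices in a fixed order, consecutive ones possibly linked, and `k` further edges,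
each having a pinned end in `V` and the other end free or pinned. -/
structure Piece (V : Type*) where
  /-- number of free vertices -/
  m : ℕ
  /-- number of edges with a pinned end -/
  k : ℕ
  /-- `link j`: free vertices `j` and `j+1` are linked -/
  link : Fin m → Bool
  /-- edges with a pinned end -/
  ext : Fin k → V × (Fin m ⊕ V)

namespace Piece

variable {V W : Type*} (P : Piece V)

/-- positions `j` linked to `j+1` -/
def inner : Finset (Fin P.m) := Finset.univ.filter fun j => P.link j = true

/-- the successor of a position (itself at the last position) -/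
def next (j : Fin P.m) : Fin P.m := if h : (j : ℕ) + 1 < P.m then ⟨(j : ℕ) + 1, h⟩ else j

/-- degree of a free vertex -/
def fdeg (j : Fin P.m) : ℕ :=
  (P.inner.filter fun i => i = j).card + (P.inner.filter fun i => P.next i = j).card
    + (Finset.univ.filter fun x => (P.ext x).2.getLeft? = some j).card

/-- every free vertex has degree two, links stay inside the range, no edge is a loop -/
structure Valid : Prop where
  link_lt : ∀ j, P.link j = true → (j : ℕ) + 1 < P.m
  deg_two : ∀ j, P.fdeg j = 2
  no_loop : ∀ x v, (P.ext x).2 = Sum.inr v → (P.ext x).1 ≠ v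

/-- number of edges -/
def size : ℕ := P.k + P.inner.card

/-- number of chains -/
def order : ℕ := P.size - P.m

/-- relabel the pinned vertices -/
def map (f : V → W) : Piece W where
  m := P.m
  k := P.k
  link := P.link
  ext x := (f (P.ext x).1, Sum.map id f (P.ext x).2)

/-- a placement of the free vertices: injective and off the pins -/
structure Good (P : Piece (Fin n)) (φ : Fin P.m → Fin n) : Prop where
  inj : Function.Injective φ
  off_fst : ∀ j x, φ j ≠ (P.ext x).1
  off_snd : ∀ j x v, (P.ext x).2 = Sum.inr v → φ j ≠ v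

/-- the multi-index of a placed piece -/
def idx (P : Piece (Fin n)) (φ : Fin P.m → Fin n) : Idx n :=
  (∑ x, pairIdx (P.ext x).1 (Sum.elim φ id (P.ext x).2)) + ∑ j ∈ P.inner, pairIdx (φ j) (φ (P.next j))

/-- the product of the couplings along the linked free vertices -/
def innerProd (P : Piece (Fin n)) (φ : Fin P.m → Fin n) (g : Edge n → ℝ) : ℝ :=
  ∏ j ∈ P.inner, cpl g (φ j) (φ (P.next j))

end Piece

end Vale.Agent.P146
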