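import Vale.Agent.P146.Calc
import Vale.Agent.P146.Assemble

/-! The variance of the free energy is polynomially smaller than `n`. -/

open MeasureTheory ProbabilityTheory Filter
open Vale.Agent.P150 (gauss)

noncomputable section

namespace Vale.Agent.P146

lemma idxLe_zero_erase (n : ℕ) : (idxLe n 0).erase 0 = ∅ := by
  refine Finset.eq_empty_of_forall_notMem fun α hα => ?_
  obtain ⟨hne, hmem⟩ := Finset.mem_erase.1 hα
  refine hne (funext fun e => ?_)
  have h := (Finset.mem_filter.1 hmem).2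
  have := Finset.single_le_sum (f := fun e => α e) (fun _ _ => Nat.zero_le _) (Finset.mem_univ e)
  simp only [deg] at h
  simp only [Pi.zero_apply]
  omega

theorem variance_le_rpow : ∃ δ : ℝ, 0 < δ ∧ ∀ β : ℝ, ∃ C : ℝ, 0 < C ∧ ∀ n : ℕ, 1 ≤ n →
    Var[free β; gauss (Edge n)] ≤ C * (n : ℝ) ^ (1 - δ) := by
  obtain ⟨c, hc⟩ := low_chaos_bound
  set δ : ℝ := 1 / ((c : ℝ) + 2) with hδ
  have hδ0 : 0 < δ := by positivity
  have hcδ : (c : ℝ) * δ + 2 * δ = 1 := by rw [hδ]; field_simp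
  have hδ1 : δ ≤ 1 := by nlinarith [mul_nonneg (Nat.cast_nonneg (α := ℝ) c) hδ0.le]
  refine ⟨δ, hδ0, fun β => ?_⟩
  have hev : ∀ᶠ x : ℝ in atTop, 2 + β ^ 2 ≤ x ^ δ ∧ Real.log x ≤ Real.log 2 * x ^ δ ∧
      (2:ℝ) ^ c ≤ x ^ (2 * δ) := by
    have h1 := (tendsto_rpow_atTop hδ0).eventually_ge_atTop (2 + β ^ 2)
    have h2 := (isLittleO_log_rpow_atTop hδ0).bound (Real.log_pos (show (1:ℝ) < 2 by norm_num))
    have h3 := (tendsto_rpow_atTop (show 0 < 2 * δ by positivity)).eventually_ge_atTop ((2:ℝ) ^ c)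
    filter_upwards [h1, h2, h3, eventually_ge_atTop (1:ℝ)] with x a b d hx
    rw [Real.norm_of_nonneg (Real.log_nonneg hx),
      Real.norm_of_nonneg (Real.rpow_nonneg (by linarith) δ)] at b
    exact ⟨a, b, d⟩
  obtain ⟨N, hN⟩ := eventually_atTop.1 hev
  refine ⟨β ^ 2 * (|N| + 1) + (2:ℝ) ^ c + 1, by positivity, fun n hn => ?_⟩
  have hn1 : (1:ℝ) ≤ n := by exact_mod_cast hn
  have hp1 : 1 ≤ (n:ℝ) ^ (1 - δ) := Real.one_le_rpow hn1 (by linarith)
  have hβ := sq_nonneg β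
  rcases lt_or_ge (n:ℝ) N with hlt | hge
  · have h0 := variance_free_le (n := n) β 0
    rw [idxLe_zero_erase, Finset.sum_empty, zero_add, Nat.cast_zero, zero_add, mul_one] at h0
    refine h0.trans (le_trans ?_ (le_mul_of_one_le_right (by positivity) hp1))
    have : (n:ℝ) ≤ |N| + 1 := by linarith [le_abs_self N]
    have := mul_le_mul_of_nonneg_left this hβ
    have : (0:ℝ) ≤ (2:ℝ) ^ c := by positivity
    nlinarith
  · obtain ⟨h1, h2, h3⟩ := hN n hge
    set K := ⌈(n:ℝ) ^ δ⌉₊ with hK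
    have hn0 : (0:ℝ) < n := by linarith
    have hKge : (n:ℝ) ^ δ ≤ K := Nat.le_ceil _
    have hKle : (K:ℝ) ≤ 2 * (n:ℝ) ^ δ := by
      have := Nat.ceil_lt_add_one (Real.rpow_nonneg hn0.le δ)
      rw [← hK] at this
      linarith
    have hK2 : 2 ≤ K := by
      have : (2:ℝ) ≤ K := by linarith
      exact_mod_cast this
    have hKc : (K:ℝ) ^ c ≤ (2:ℝ) ^ c * (n:ℝ) ^ ((c:ℝ) * δ) := by
      refine (pow_le_pow_left₀ (Nat.cast_nonneg K) hKle c).trans (le_of_eq ?_)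
      rw [mul_pow, ← Real.rpow_natCast ((n:ℝ) ^ δ) c, ← Real.rpow_mul hn0.le, mul_comm δ]
    have hKn : K ^ c ≤ n := by
      suffices h : ((K:ℝ)) ^ c ≤ n by exact_mod_cast h
      refine hKc.trans ((mul_le_mul_of_nonneg_right h3 (by positivity)).trans (le_of_eq ?_))
      rw [← Real.rpow_add hn0, add_comm, hcδ, Real.rpow_one]
    have hn2 : n ≤ 2 ^ K := by
      suffices h : (n:ℝ) ≤ (2:ℝ) ^ K by exact_mod_cast h
      rw [← Real.log_le_log_iff hn0 (by positivity), Real.log_pow]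
      refine h2.trans ?_
      rw [mul_comm]
      exact mul_le_mul_of_nonneg_right hKge (Real.log_nonneg (by norm_num))
    refine (variance_free_le (n := n) β K).trans ?_
    have hlow := (hc n K β hK2 (by linarith) hKn hn2).trans hKc
    have hexp : (n:ℝ) ^ ((c:ℝ) * δ) ≤ (n:ℝ) ^ (1 - δ) :=
      Real.rpow_le_rpow_of_exponent_le hn1 (by linarith)
    have hpos : 0 < (n:ℝ) ^ δ := Real.rpow_pos_of_pos hn0 δ
    have htail : β ^ 2 * n / (2 * ((K:ℝ) + 1)) ≤ β ^ 2 * (n:ℝ) ^ (1 - δ) := by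
      rw [Real.rpow_sub hn0, Real.rpow_one, mul_div_assoc' ]
      exact div_le_div_of_nonneg_left (by positivity) hpos (by linarith)
    have := mul_le_mul_of_nonneg_left hexp (show (0:ℝ) ≤ (2:ℝ) ^ c by positivity)
    have h4 : 0 ≤ β ^ 2 * |N| * (n:ℝ) ^ (1 - δ) := by positivity
    linarith

end Vale.Agent.P146
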