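import Vale.Agent.P157.Lim.Calc

/-!
Gaussian interpolation for functions of exponential growth, and the truncated Taylor expansion of
the correlation function `t ↦ E[F(g_t) F(g'_t)]`.
-/

open MeasureTheory ProbabilityTheory Set Filter
open Vale.Agent.P150 (gauss dot l1 gauss_ibp integrable_of_bound abs_dot_le l1_nonneg abs_le_l1
  integrable_exp_l1)
open Vale.Agent.P157.Lim (Der cvec dvec field dcov continuous_field continuous_field'
  hasDerivAt_field dot_cvec_dvec)

namespace Vale.Agent.P146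

set_option linter.unusedSectionVars false

variable {S ι κ : Type*} [Fintype S] [Fintype ι] [Fintype κ]

/-- continuous, of at most exponential growth -/
def EB (F : (S → ℝ) → ℝ) : Prop :=
  Continuous F ∧ ∃ C M, 0 ≤ M ∧ ∀ z, |F z| ≤ C * Real.exp (M * l1 z)

lemma EB.const (c : ℝ) : EB (fun _ : S → ℝ => c) :=
  ⟨continuous_const, |c|, 0, le_rfl, fun z => by simp⟩

lemma EB.add {F G : (S → ℝ) → ℝ} (hF : EB F) (hG : EB G) : EB (fun z => F z + G z) := by
  obtain ⟨hf, C, M, hM, hC⟩ := hF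
  obtain ⟨hg, E, N, hN, hE⟩ := hG
  have hC0 : 0 ≤ C := nonneg_of_mul_nonneg_left ((abs_nonneg _).trans (hC 0)) (Real.exp_pos _)
  have hE0 : 0 ≤ E := nonneg_of_mul_nonneg_left ((abs_nonneg _).trans (hE 0)) (Real.exp_pos _)
  refine ⟨hf.add hg, C + E, max M N, hM.trans (le_max_left _ _), fun z => ?_⟩
  rw [add_mul]
  exact (abs_add_le _ _).trans (add_le_add
    ((hC z).trans (mul_le_mul_of_nonneg_left (Real.exp_le_exp.2
      (mul_le_mul_of_nonneg_right (le_max_left _ _) (l1_nonneg z))) hC0))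
    ((hE z).trans (mul_le_mul_of_nonneg_left (Real.exp_le_exp.2
      (mul_le_mul_of_nonneg_right (le_max_right _ _) (l1_nonneg z))) hE0)))

lemma EB.mul {F G : (S → ℝ) → ℝ} (hF : EB F) (hG : EB G) : EB (fun z => F z * G z) := by
  obtain ⟨hf, C, M, hM, hC⟩ := hF
  obtain ⟨hg, E, N, hN, hE⟩ := hG
  refine ⟨hf.mul hg, C * E, M + N, add_nonneg hM hN, fun z => ?_⟩
  rw [abs_mul, add_mul, Real.exp_add, mul_mul_mul_comm]
  exact mul_le_mul (hC z) (hE z) (abs_nonneg _) ((abs_nonneg _).trans (hC z))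

lemma EB.sum {α : Type*} (A : Finset α) {F : α → (S → ℝ) → ℝ} (hF : ∀ i ∈ A, EB (F i)) :
    EB (fun z => ∑ i ∈ A, F i z) := by
  classical
  induction A using Finset.induction with
  | empty => simpa using EB.const (S := S) 0
  | insert a A ha ih =>
    simp only [Finset.sum_insert ha]
    exact (hF a (Finset.mem_insert_self _ _)).add (ih fun i hi => hF i (Finset.mem_insert_of_mem hi))

variable (a : S → ι → ℝ) (b : S → κ → ℝ)

/-- a bound for the coefficient vectors on `[0,1]` -/
def cbd (v : S) : ℝ := ∑ i, |a v i| + ∑ j, |b v j|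

lemma cbd_nonneg (v : S) : 0 ≤ cbd a b v :=
  add_nonneg (Finset.sum_nonneg fun _ _ => abs_nonneg _) (Finset.sum_nonneg fun _ _ => abs_nonneg _)

lemma abs_cvec_le {t : ℝ} (ht : t ∈ Icc (0:ℝ) 1) (v : S) (k : ι ⊕ κ) :
    |cvec a b t v k| ≤ cbd a b v := by
  have n0 : 0 ≤ ∑ i, |a v i| := Finset.sum_nonneg fun _ _ => abs_nonneg _
  have n1 : 0 ≤ ∑ j, |b v j| := Finset.sum_nonneg fun _ _ => abs_nonneg _
  rcases k with i | j <;> simp only [cvec, Sum.elim_inl, Sum.elim_inr, abs_mul,
    abs_of_nonneg (Real.sqrt_nonneg _), cbd]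
  · exact (mul_le_of_le_one_left (abs_nonneg _) (Real.sqrt_le_one.2 ht.2)).trans
      ((Finset.single_le_sum (f := fun i => |a v i|) (fun _ _ => abs_nonneg _) (Finset.mem_univ i)).trans
        (le_add_of_nonneg_right n1))
  · exact (mul_le_of_le_one_left (abs_nonneg _) (Real.sqrt_le_one.2 (by linarith [ht.1]))).trans
      ((Finset.single_le_sum (f := fun j => |b v j|) (fun _ _ => abs_nonneg _) (Finset.mem_univ j)).trans
        (le_add_of_nonneg_left n0))

lemma EB.field_bound {H : (S → ℝ) → ℝ} (hH : EB H) :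
    ∃ C M, 0 ≤ M ∧ ∀ t ∈ Icc (0:ℝ) 1, ∀ g : ι ⊕ κ → ℝ,
      |H (field a b t g)| ≤ C * Real.exp (M * l1 g) := by
  obtain ⟨hc, C, M, hM, hC⟩ := hH
  have hC0 : 0 ≤ C := nonneg_of_mul_nonneg_left ((abs_nonneg _).trans (hC 0)) (Real.exp_pos _)
  refine ⟨C, M * ∑ v, cbd a b v, mul_nonneg hM (Finset.sum_nonneg fun v _ => cbd_nonneg a b v),
    fun t ht g => (hC _).trans (mul_le_mul_of_nonneg_left (Real.exp_le_exp.2 ?_) hC0)⟩
  rw [mul_assoc, l1, Finset.sum_mul]
  exact mul_le_mul_of_nonneg_left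
    (Finset.sum_le_sum fun v _ => abs_dot_le (fun k => abs_cvec_le a b ht v k) g) hM

lemma integrable_EB {H : (S → ℝ) → ℝ} (hH : EB H) {t : ℝ} (ht : t ∈ Icc (0:ℝ) 1) :
    Integrable (fun g => H (field a b t g)) (gauss (ι ⊕ κ)) := by
  obtain ⟨C, M, hM, hC⟩ := hH.field_bound a b
  exact integrable_of_bound (hH.1.comp (continuous_field a b t)) (hC t ht)

lemma continuousOn_EB {H : (S → ℝ) → ℝ} (hH : EB H) :
    ContinuousOn (fun t => ∫ g, H (field a b t g) ∂gauss (ι ⊕ κ)) (Icc 0 1) := by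
  obtain ⟨C, M, hM, hC⟩ := hH.field_bound a b
  exact continuousOn_of_dominated
    (fun t _ => (hH.1.comp (continuous_field a b t)).aestronglyMeasurable)
    (fun t ht => Eventually.of_forall fun g => hC t ht g)
    ((integrable_exp_l1 M).const_mul C)
    (Eventually.of_forall fun g => (hH.1.comp (continuous_field' a b g)).continuousOn)

lemma interpE {H : (S → ℝ) → ℝ} {H1 : S → (S → ℝ) → ℝ} {H2 : S → S → (S → ℝ) → ℝ}
    (hH : EB H) (hd : Der H H1) (hH1 : ∀ v, EB (H1 v)) (hd1 : ∀ v, Der (H1 v) (H2 v))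
    (hH2 : ∀ v u, EB (H2 v u)) {t : ℝ} (h0 : 0 < t) (h1 : t < 1) :
    HasDerivAt (fun x => ∫ g, H (field a b x g) ∂gauss (ι ⊕ κ))
      (1 / 2 * ∑ v, ∑ u, dcov a b u v * ∫ g, H2 v u (field a b t g) ∂gauss (ι ⊕ κ)) t := by
  classical
  choose C1 M1 hM1 hC1 using fun v => (hH1 v).field_bound a b
  have hC10 : ∀ v, 0 ≤ C1 v := fun v =>
    nonneg_of_mul_nonneg_left ((abs_nonneg _).trans (hC1 v t ⟨h0.le, h1.le⟩ 0)) (Real.exp_pos _)
  set r : ℝ := min t (1 - t) / 2 with hr
  have hr0 : 0 < r := by have := lt_min h0 (show 0 < 1 - t by linarith); positivity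
  have htI : t ∈ Icc (0:ℝ) 1 := ⟨h0.le, h1.le⟩
  have hball : ∀ x ∈ Metric.ball t r, r ≤ x ∧ r ≤ 1 - x := by
    intro x hx
    rw [Metric.mem_ball, Real.dist_eq, abs_lt] at hx
    have e1 : min t (1 - t) ≤ t := min_le_left _ _
    have e2 : min t (1 - t) ≤ 1 - t := min_le_right _ _
    constructor <;> linarith
  set F' : ℝ → (ι ⊕ κ → ℝ) → ℝ := fun x g => ∑ v, H1 v (field a b x g) * dot (dvec a b x v) g with hF'
  set E : S → ℝ := fun v => cbd a b v * (1 / (2 * √r))
  have hE0 : ∀ v, 0 ≤ E v := fun v => mul_nonneg (cbd_nonneg a b v) (by positivity)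
  have hdv : ∀ x ∈ Metric.ball t r, ∀ v k, |dvec a b x v k| ≤ E v := by
    intro x hx v k
    obtain ⟨hx0, hx1⟩ := hball x hx
    have p0 : (0:ℝ) < √r := Real.sqrt_pos.2 hr0
    have n0 : 0 ≤ ∑ i, |a v i| := Finset.sum_nonneg fun _ _ => abs_nonneg _
    have n1 : 0 ≤ ∑ j, |b v j| := Finset.sum_nonneg fun _ _ => abs_nonneg _
    rcases k with i | j
    · have hi : |a v i| ≤ ∑ i, |a v i| :=
        Finset.single_le_sum (f := fun i => |a v i|) (fun _ _ => abs_nonneg _) (Finset.mem_univ i)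
      simp only [dvec, Sum.elim_inl, abs_mul, E, cbd]
      rw [abs_of_nonneg (show 0 ≤ 1 / (2 * √x) by positivity)]
      exact mul_le_mul (by linarith) (by gcongr) (by positivity) (by positivity)
    · have hj : |b v j| ≤ ∑ j, |b v j| :=
        Finset.single_le_sum (f := fun j => |b v j|) (fun _ _ => abs_nonneg _) (Finset.mem_univ j)
      simp only [dvec, Sum.elim_inr, abs_mul, E, cbd]
      rw [neg_div, abs_neg, abs_of_nonneg (show 0 ≤ 1 / (2 * √(1 - x)) by positivity)]
      exact mul_le_mul (by linarith) (by gcongr) (by positivity) (by positivity)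
  set N : ℝ := ∑ v, M1 v
  have hl : ∀ g : ι ⊕ κ → ℝ, l1 g ≤ Real.exp (1 * l1 g) := fun g => by
    rw [one_mul]; linarith [Real.add_one_le_exp (l1 g)]
  have key := (hasDerivAt_integral_of_dominated_loc_of_deriv_le
    (F := fun x g => H (field a b x g)) (F' := F')
    (bound := fun g => (∑ v, C1 v * E v) * Real.exp ((N + 1) * l1 g))
    (Metric.ball_mem_nhds t hr0)
    (Eventually.of_forall fun x => (hH.1.comp (continuous_field a b x)).aestronglyMeasurable)
    (integrable_EB a b hH htI)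
    (continuous_finsetSum _ fun v _ => ((hH1 v).1.comp (continuous_field a b t)).mul
      (by unfold dot; fun_prop)).aestronglyMeasurable
    (Eventually.of_forall fun g x hx => by
      obtain ⟨hx0, hx1⟩ := hball x hx
      rw [Real.norm_eq_abs, Finset.sum_mul]
      refine (Finset.abs_sum_le_sum_abs _ _).trans (Finset.sum_le_sum fun v _ => ?_)
      rw [abs_mul, add_mul, Real.exp_add, mul_mul_mul_comm]
      refine mul_le_mul ((hC1 v x ⟨by linarith, by linarith⟩ g).trans
        (mul_le_mul_of_nonneg_left (Real.exp_le_exp.2 (mul_le_mul_of_nonneg_right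
          (Finset.single_le_sum (f := M1) (fun v _ => hM1 v) (Finset.mem_univ v)) (l1_nonneg g)))
          (hC10 v))) ((abs_dot_le (hdv x hx v) g).trans (mul_le_mul_of_nonneg_left (hl g) (hE0 v)))
        (abs_nonneg _) (mul_nonneg (hC10 v) (Real.exp_pos _).le))
    ((integrable_exp_l1 _).const_mul _)
    (Eventually.of_forall fun g x hx => by
      obtain ⟨hx0, hx1⟩ := hball x hx
      exact hd (fun y => field a b y g) _ x fun s =>
        hasDerivAt_field a b (by linarith) (by linarith) g s)).2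
  refine key.congr_deriv ?_
  have hibp : ∀ v k, ∫ g, g k * H1 v (field a b t g) ∂gauss (ι ⊕ κ) =
      ∑ u, cvec a b t u k * ∫ g, H2 v u (field a b t g) ∂gauss (ι ⊕ κ) := by
    intro v k
    have hb2 : EB (fun z => ∑ u, cvec a b t u k * H2 v u z) :=
      EB.sum _ fun u _ => (EB.const _).mul (hH2 v u)
    obtain ⟨K, L, hL, hK⟩ := hb2.field_bound a b
    have hK0 : 0 ≤ K :=
      nonneg_of_mul_nonneg_left ((abs_nonneg _).trans (hK t htI 0)) (Real.exp_pos _)
    have up : ∀ (C C' M M' : ℝ), 0 ≤ C → C ≤ C' → M ≤ M' → ∀ g : ι ⊕ κ → ℝ,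
        C * Real.exp (M * l1 g) ≤ C' * Real.exp (M' * l1 g) := fun C C' M M' hC hCC hMM g =>
      mul_le_mul hCC (Real.exp_le_exp.2 (mul_le_mul_of_nonneg_right hMM (l1_nonneg g)))
        (Real.exp_pos _).le (hC.trans hCC)
    rw [gauss_ibp (C := max (C1 v) K) (M := max (M1 v) L) k (hL.trans (le_max_right _ _))
      (φ := fun g => H1 v (field a b t g)) ((hH1 v).1.comp (continuous_field a b t))
      (φ' := fun g => ∑ u, cvec a b t u k * H2 v u (field a b t g))
      (hb2.1.comp (continuous_field a b t))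
      (fun g => (hC1 v t htI g).trans (up _ _ _ _ (hC10 v) (le_max_left _ _) (le_max_left _ _) g))
      (fun g => (hK t htI g).trans (up _ _ _ _ hK0 (le_max_right _ _) (le_max_right _ _) g)) ?_,
      integral_finsetSum _ fun u _ => (integrable_EB a b (hH2 v u) htI).const_mul _]
    · simp only [integral_const_mul]
    · intro z s
      refine (hd1 v (fun x => field a b t (Function.update z k x)) (fun u => cvec a b t u k) s
        fun u => ?_).congr_deriv (Finset.sum_congr rfl fun u _ => mul_comm _ _)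
      unfold field dot
      refine (HasDerivAt.fun_sum fun i _ => HasDerivAt.const_mul (cvec a b t u i)
        ((hasDerivAt_pi.1 (hasDerivAt_update z k s)) i)).congr_deriv ?_
      simp [Pi.single_apply]
  have hint : ∀ v k, Integrable (fun g => g k * H1 v (field a b t g)) (gauss (ι ⊕ κ)) := by
    intro v k
    refine integrable_of_bound (C := C1 v) (M := M1 v + 1)
      ((continuous_apply k).mul ((hH1 v).1.comp (continuous_field a b t))) fun g => ?_
    rw [abs_mul, add_mul, Real.exp_add, ← mul_assoc, mul_comm |g k|]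
    exact mul_le_mul (hC1 v t htI g) ((abs_le_l1 g k).trans (hl g)) (abs_nonneg _)
      (mul_nonneg (hC10 v) (Real.exp_pos _).le)
  have e : ∀ g, F' t g = ∑ v, ∑ k, dvec a b t v k * (g k * H1 v (field a b t g)) := fun g => by
    simp only [hF', dot, Finset.mul_sum]
    exact Finset.sum_congr rfl fun v _ => Finset.sum_congr rfl fun k _ => by ring
  simp only [e]
  rw [integral_finsetSum _ fun v _ => integrable_finsetSum _ fun k _ => (hint v k).const_mul _,
    Finset.mul_sum]
  refine Finset.sum_congr rfl fun v _ => ?_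
  rw [integral_finsetSum _ fun k _ => (hint v k).const_mul _]
  simp only [integral_const_mul, hibp, Finset.mul_sum]
  rw [Finset.sum_comm]
  refine Finset.sum_congr rfl fun u _ => ?_
  rw [← mul_assoc, one_div_mul_eq_div, ← dot_cvec_dvec a b h0 h1, dot, Finset.sum_mul]
  exact Finset.sum_congr rfl fun k _ => by ring

end Vale.Agent.P146
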