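import Vale.Agent.P146.Trace.Bound
import Vale.Agent.P146.Trace.Count

/-! Operator bound for products of non-backtracking path matrices (trace method). -/

open MeasureTheory
open Vale.Agent.P150 (gauss)

noncomputable section

namespace Vale.Agent.P146

/-- Path matrices: over `m` positions cut into blocks by `link`, the sum over injective placements of the
product of the couplings along the links, tested against bounded end vectors, is at most `N · n^{#blocks}`,
and `E N² ≤ n^{#links} K^{C #blocks}`. -/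
theorem chain_bound : ∃ C : ℕ, ∀ (n K : ℕ) (P : Piece (Fin n)),
    (∀ j, P.link j = true → (j : ℕ) + 1 < P.m) → P.m ≤ K → 2 ≤ K → K ^ C ≤ n → n ≤ 2 ^ K →
    ∀ A : Finset (Fin P.m → Fin n), (∀ φ ∈ A, Function.Injective φ) →
    ∃ N : (Edge n → ℝ) → ℝ, MemLp N 2 (gauss (Edge n)) ∧
      ∫ g, N g ^ 2 ∂gauss (Edge n) ≤ (n : ℝ) ^ P.inner.card * (K : ℝ) ^ (C * (P.m - P.inner.card)) ∧
      ∀ (g : Edge n → ℝ) (f : Fin P.m → Fin n → ℝ), (∀ j a, |f j a| ≤ 1) →
        (∀ j, j ∈ P.inner → (∃ i ∈ P.inner, P.next i = j) → ∀ a, f j a = 1) →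
        |∑ φ ∈ A, P.innerProd φ g * ∏ j, f j (φ j)| ≤ N g * (n : ℝ) ^ (P.m - P.inner.card) := by
  obtain ⟨C, hC⟩ := Trace.count_bound
  exact ⟨30 * C + 1, Trace.chain_bound_of_count fun N n W H T => hC N n W H T⟩

end Vale.Agent.P146
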