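import Vale.Agent.P146.Piece.Induct

/-! The mass carried by a piece. -/

noncomputable section

namespace Vale.Agent.P146

open Classical in
/-- The squared coefficients of all multigraphs containing a placed piece, with the rest off its free
vertices, total at most `K^{C·#chains} n^{-#edges}`. -/
theorem piece_bound : ∃ C : ℕ, ∀ (n K : ℕ) (β : ℝ) (P : Piece (Fin n)) (φ : Fin P.m → Fin n),
    P.Valid → P.Good φ → 0 < P.k → P.size ≤ K → 2 ≤ K → 1 + β ^ 2 ≤ K → K ^ C ≤ n → n ≤ 2 ^ K →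
    ∑ R ∈ (idxLe n K).filter (fun R => deg R + P.size ≤ K ∧ ∀ j, vdeg R (φ j) = 0),
        coef β (P.idx φ + R) ^ 2 / fac R ≤
      (K : ℝ) ^ (C * P.order) / (n : ℝ) ^ P.size := by
  obtain ⟨C, hC⟩ := Piece.mass_le
  refine ⟨C, fun n K β P φ h1 h2 h3 h4 h5 h6 h7 h8 => ?_⟩
  refine le_of_eq_of_le ?_ (hC n K β P φ h1 h2 h3 h4 h5 h6 h7 h8)
  unfold Piece.mass Piece.rIdx
  congr

end Vale.Agent.P146
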